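import Vale.Agent.P214.W5.Scale

set_option linter.all false

/-! Block WINDOWS (W5), (W4), next scale: the output for one step of the sequence. -/

open Set Filter Topology MeasureTheory Metric
open scoped RealInnerProductSpace ENNReal NNReal

namespace Vale.Agent.P214.W5

open Vale.Agent.P214 Vale.Agent.P214.FV
open Vale.Agent.P214.Skel (cylSet om)

variable {E : Type*} [NormedAddCommGroup E] [InnerProductSpace ℝ E] [FiniteDimensional ℝ E]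
  [MeasurableSpace E] [BorelSpace E]

/-- the data at the scale `r` which do not depend on the reference: `IntCyl` over the double ball,
the compact set `K` of points of density `≥ Q` with its density defect `δ`, mass bounds -/
structure Dat (m Q : ℕ) (T : Submodule ℝ E) (ν : Measure E) (P : E → E →L[ℝ] E) (K : Set E)
    (δ : ℝ → ℝ) (M τ r : ℝ) : Prop where
  r_pos : 0 < r
  int : ∃ h, Skel.IntCyl m Q T 0 (2 * r) h τ ν P
  exc : Skel.exc T ν P 0 (2 * r) ≤ τ * (2 * r) ^ m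
  cpt : IsCompact K
  ratio : ∀ z ∈ K, ‖T.starProjection z‖ < r →
    ∃ s₀ > 0, ∀ s, 0 < s → s ≤ s₀ → (Q : ℝ) * cg m ≤ ratio m ν z s
  mass : ∀ t, 0 < t → t ≤ r → ν.real (cylSet T 0 t) ≤ M * t ^ m
  δ_nn : ∀ t, 0 < t → t ≤ r → 0 ≤ δ t
  dens : ∀ t, 0 < t → t ≤ r →
    μH[m] (((T : Set E) ∩ ball 0 t) \ (T.starProjection '' K)) ≤ ENNReal.ofReal (δ t * t ^ m)

/-- a bad set as it comes out of STEP: small, with small excess off it; `R` is the radius of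
exactness of the new reference, `β` the measure of the bad set divided by `r^m` -/
structure BadS (m : ℕ) (T : Submodule ℝ E) (ν : Measure E) (P : E → E →L[ℝ] E) (Bad : Set E)
    (β τ r R : ℝ) : Prop where
  R_le : R ≤ r
  le_R : r ≤ 2 * R
  meas : MeasurableSet Bad
  small : ν.real (T.starProjection ⁻¹' Bad) ≤ β * r ^ m
  good : ∀ x ∈ T, x ∉ Bad → ∀ s, 0 < s → ‖x‖ + s < R → Skel.exc T ν P x s ≤ τ * s ^ m

/-- a relative height: sup bound `(L5)` at all radii, small (`≤ σ`) on `K` off the bad set -/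
structure Hgt (m : ℕ) (T : Submodule ℝ E) (ν : Measure E) (K Bad : Set E) (v : E → E)
    (C₅ σ R : ℝ) : Prop where
  cont : Continuous v
  sup : ∀ t, 0 < t → 2 * t ≤ R → ∀ y ∈ ν.support, ‖T.starProjection y‖ < t →
    ‖v y‖ ^ 2 ≤ C₅ * (t ^ m)⁻¹ * ∫ y in cylSet T 0 (2 * t), ‖v y‖ ^ 2 ∂ν
  pts : ∀ z ∈ K, ‖T.starProjection z‖ < R → T.starProjection z ∉ Bad → ‖v z‖ ≤ σ

/-- **(W5)** -/
theorem decay_all (E : Type*) [NormedAddCommGroup E] [InnerProductSpace ℝ E]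
    [FiniteDimensional ℝ E] [MeasurableSpace E] [BorelSpace E] (m Q : ℕ) (hm : 1 ≤ m) :
    ∃ τ C : ℝ, 0 < τ ∧ 1 ≤ C ∧ ∀ (T : Submodule ℝ E) (ν : Measure E)
      (P : E → E →L[ℝ] E) (v : E → E) (K Bad : Set E) (δ : ℝ → ℝ) (σ β M C₅ r R : ℝ),
      Dat m Q T ν P K δ M τ r → BadS m T ν P Bad β τ r R → Hgt m T ν K Bad v C₅ σ R → 0 ≤ C₅ →
      ∀ t, 0 < t → 2 * t ≤ R →
        hV m T v ν t ≤ C * C₅ * (δ t + β * (r / t) ^ m) * hV m T v ν (2 * t)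
          + M * (σ / t) ^ 2 := by
  obtain ⟨τ, C, hτ, hC, H⟩ := decay1 E m Q hm
  refine ⟨τ, C, hτ, hC, ?_⟩
  intro T ν P v K Bad δ σ β M C₅ r R hD hB hv hC₅ t ht htR
  obtain ⟨h, hI⟩ := hD.int
  have hr := hD.r_pos
  have hRr := hB.R_le
  have htr : t ≤ r := by linarith
  have h1 := H T (2 * r) h ν P v K Bad t σ (β * r ^ m) (δ t) M C₅ hI hD.exc ht (by linarith)
    hv.cont hD.cpt (fun z hz hzt => hD.ratio z hz (by linarith)) hB.meas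
    (fun x hx hxt hxB s hs hs2 => hB.good x hx hxB s hs (by linarith [hB.le_R]))
    (fun z hz hzt hzB => hv.pts z hz (by linarith) hzB)
    (fun y hy hyt => hv.sup t ht htR y hy hyt) hC₅ hB.small (hD.dens t ht htr)
    (hD.δ_nn t ht htr) (hD.mass t ht htr)
  have e1 : β * r ^ m / t ^ m = β * (r / t) ^ m := by rw [div_pow]; ring
  rwa [e1] at h1

/-- left continuity of the normalised height -/
lemma tendsto_hV_left {m : ℕ} {T : Submodule ℝ E} {ν : Measure E} {v : E → E} {t : ℝ}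
    (ht : 0 < t) (hint : IntegrableOn (fun y => ‖v y‖ ^ 2) (cylSet T 0 t) ν) :
    Tendsto (hV m T v ν) (𝓝[<] t) (𝓝 (hV m T v ν t)) := by
  unfold hV
  refine Tendsto.mul ?_ (tendsto_integral_left T 0 hint)
  have h1 : ContinuousAt (fun t : ℝ => (t ^ (m + 2))⁻¹) t :=
    (continuousAt_id.pow _).inv₀ (pow_pos ht _).ne'
  exact h1.tendsto.mono_left nhdsWithin_le_nhds

/-- **(W4)**: the value at the origin -/
theorem value_zero {m : ℕ} {T : Submodule ℝ E} {ν : Measure E} {K Bad : Set E} {v : E → E}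
    {C₅ σ R t : ℝ} (hv : Hgt m T ν K Bad v C₅ σ R) (h0 : (0:E) ∈ ν.support) (ht : 0 < t)
    (htR : t ≤ R) : ‖v 0‖ ^ 2 ≤ C₅ * 2 ^ m * t ^ 2 * hV m T v ν t := by
  have h1 := hv.sup (t / 2) (by positivity) (by linarith) 0 h0 (by simp; positivity)
  refine h1.trans (le_of_eq ?_)
  unfold hV
  rw [show 2 * (t / 2) = t by ring, div_pow, show t ^ (m + 2) = t ^ m * t ^ 2 by ring]
  field_simp

/-- the exponents: `c₀` from STEP, `c₅` the length of a window, `D` the power of the decay,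
`e` the loss in the size of the increment, `c` the gain per step, `c'` the gain at the points of
`K` after the translation -/
structure Expo (m D : ℕ) (c₀ c c' c₅ e : ℝ) : Prop where
  D_pos : 1 ≤ D
  c_pos : 0 < c
  c₅_pos : 0 < c₅
  e_nn : 0 ≤ e
  c'_pos : 0 < c'
  c'_lt : c' < c₀
  m_c₅ : m * c₅ ≤ c₀ / 2
  zero : 2 * c' < (D + 2) * c₅ - e
  next : c < D * c₅ - e
  next' : c < 2 * c' - 2 * c₅

/-- smallness of `H` -/
structure Sm (m D : ℕ) (c₀ c c' c₅ e A C₅ C₁ H : ℝ) : Prop where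
  pos : 0 < H
  le_one : H ≤ 1
  s1 : A * 2 ^ D * 2 * H ^ (c₀ / 2) ≤ 1
  s2 : 2 * H ^ c₅ ≤ 1
  s3 : 2 * (C₅ * 2 ^ m * (4 ^ D * C₁)) * H ^ (1 + (D + 2) * c₅ - e) ≤ H ^ (1 + 2 * c')
  s4 : 2 * (C₅ * 2 ^ m * (2 * A)) * H ^ (1 + 2 * c₀) ≤ H ^ (1 + 2 * c')
  s5 : 2 * (4 ^ D * C₁) * H ^ (1 + D * c₅ - e) ≤ H ^ (1 + c)
  s6 : 2 * (2 * A) * H ^ (1 + 2 * c' - 2 * c₅) ≤ H ^ (1 + c)

variable {m D : ℕ} {c₀ c c' c₅ e A C₅ C₁ H : ℝ}

lemma exists_sm (hX : Expo m D c₀ c c' c₅ e) (A C₅ C₁ : ℝ) :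
    ∃ ε : ℝ, 0 < ε ∧ ∀ H, 0 < H → H ≤ ε → Sm m D c₀ c c' c₅ e A C₅ C₁ H := by
  have hc₀ : 0 < c₀ := hX.c'_pos.trans hX.c'_lt
  obtain ⟨ε₁, hε₁, h1⟩ := exists_pow_small (a := c₀ / 2) (b := 0) (A * 2 ^ D * 2) (by positivity)
  obtain ⟨ε₂, hε₂, h2⟩ := exists_pow_small (a := c₅) (b := 0) 2 hX.c₅_pos
  obtain ⟨ε₃, hε₃, h3⟩ := exists_pow_small (a := 1 + (D + 2) * c₅ - e) (b := 1 + 2 * c')
    (2 * (C₅ * 2 ^ m * (4 ^ D * C₁))) (by linarith [hX.zero])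
  obtain ⟨ε₄, hε₄, h4⟩ := exists_pow_small (a := 1 + 2 * c₀) (b := 1 + 2 * c')
    (2 * (C₅ * 2 ^ m * (2 * A))) (by linarith [hX.c'_lt])
  obtain ⟨ε₅, hε₅, h5⟩ := exists_pow_small (a := 1 + D * c₅ - e) (b := 1 + c)
    (2 * (4 ^ D * C₁)) (by linarith [hX.next])
  obtain ⟨ε₆, hε₆, h6⟩ := exists_pow_small (a := 1 + 2 * c' - 2 * c₅) (b := 1 + c)
    (2 * (2 * A)) (by linarith [hX.next'])
  refine ⟨min 1 (min (min ε₁ ε₂) (min (min ε₃ ε₄) (min ε₅ ε₆))), by positivity,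
    fun H hH hHε => ?_⟩
  have hH1 : H ≤ 1 := hHε.trans (min_le_left _ _)
  have hHe := hHε.trans (min_le_right _ _)
  have hHe12 := hHe.trans (min_le_left _ _)
  have hHe36 := hHe.trans (min_le_right _ _)
  have hHe34 := hHe36.trans (min_le_left _ _)
  have hHe56 := hHe36.trans (min_le_right _ _)
  have a1 := h1 H hH (hHe12.trans (min_le_left _ _))
  have a2 := h2 H hH (hHe12.trans (min_le_right _ _))
  rw [Real.rpow_zero] at a1 a2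
  exact ⟨hH, hH1, a1, a2, h3 H hH (hHe34.trans (min_le_left _ _)),
    h4 H hH (hHe34.trans (min_le_right _ _)), h5 H hH (hHe56.trans (min_le_left _ _)),
    h6 H hH (hHe56.trans (min_le_right _ _))⟩

lemma rpow_sq (hH : 0 < H) (p : ℝ) : (H ^ p) ^ 2 = H ^ (2 * p) := by
  rw [← Real.rpow_natCast, ← Real.rpow_mul hH.le]; congr 1; push_cast; ring

/-- the bad set term -/
lemma coef_bad {r t : ℝ} (hr : 0 < r) (hH : 0 < H) (hH1 : H ≤ 1) (hmc : m * c₅ ≤ c₀ / 2)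
    (hat : r * H ^ c₅ ≤ t) : H ^ c₀ * (r / t) ^ m ≤ H ^ (c₀ / 2) := by
  have hHc0 : 0 < H ^ c₅ := by positivity
  have ht : 0 < t := lt_of_lt_of_le (by positivity) hat
  have b1 : r / t ≤ H ^ (-c₅) := by
    rw [Real.rpow_neg hH.le, div_le_iff₀ ht, inv_mul_eq_div, le_div_iff₀ hHc0]
    exact hat
  have b2 : (r / t) ^ m ≤ H ^ (-(m * c₅)) := by
    calc (r / t) ^ m ≤ (H ^ (-c₅)) ^ m := by gcongr
      _ = H ^ (-(m * c₅)) := by
          rw [← Real.rpow_natCast, ← Real.rpow_mul hH.le]; congr 1; ring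
  calc H ^ c₀ * (r / t) ^ m ≤ H ^ c₀ * H ^ (-(m * c₅)) := by gcongr
    _ = H ^ (c₀ - m * c₅) := by rw [← Real.rpow_add hH]; congr 1
    _ ≤ H ^ (c₀ / 2) := Real.rpow_le_rpow_of_exponent_ge hH hH1 (by linarith)

lemma coef_small {x : ℝ} (hA : 0 < A) (hx : x ≤ 1 / (2 * A * 2 ^ D))
    (h1 : A * 2 ^ D * 2 * H ^ (c₀ / 2) ≤ 1) : A * (x + H ^ (c₀ / 2)) ≤ 1 / 2 ^ D := by
  have b2 : A * H ^ (c₀ / 2) ≤ 1 / (2 * 2 ^ D) := by
    rw [le_div_iff₀ (by positivity)]; nlinarith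
  have b3 : A * (1 / (2 * A * 2 ^ D)) = 1 / (2 * 2 ^ D) := by field_simp
  have b4 : (1:ℝ) / 2 ^ D = 1 / (2 * 2 ^ D) + 1 / (2 * 2 ^ D) := by field_simp; norm_num
  have b5 : A * x ≤ A * (1 / (2 * A * 2 ^ D)) := by gcongr
  rw [mul_add, b4]; linarith

/-- the value at the origin: arithmetic -/
lemma value_arith {r X x : ℝ} (hr : 0 < r) (hC₅ : 0 ≤ C₅)
    (hS : Sm m D c₀ c c' c₅ e A C₅ C₁ H) (hx0 : 0 ≤ x)
    (hu : X ≤ 4 ^ D * C₁ * H ^ (1 + D * c₅ - e) + 2 * A * H ^ (1 + 2 * c₀ - 2 * c₅))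
    (hx : x ^ 2 ≤ C₅ * 2 ^ m * (r * H ^ c₅) ^ 2 * X) : x ≤ r * H ^ (1 / 2 + c') := by
  have hH := hS.pos
  have h1 : H ^ (2 * c₅) * H ^ (1 + D * c₅ - e) = H ^ (1 + (D + 2) * c₅ - e) := by
    rw [← Real.rpow_add hH]; congr 1; ring
  have h2 : H ^ (2 * c₅) * H ^ (1 + 2 * c₀ - 2 * c₅) = H ^ (1 + 2 * c₀) := by
    rw [← Real.rpow_add hH]; congr 1; ring
  have b3 : C₅ * 2 ^ m * (r * H ^ c₅) ^ 2 * X ≤ r ^ 2 * H ^ (1 + 2 * c') := by
    calc C₅ * 2 ^ m * (r * H ^ c₅) ^ 2 * X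
        ≤ C₅ * 2 ^ m * (r * H ^ c₅) ^ 2 * (4 ^ D * C₁ * H ^ (1 + D * c₅ - e)
          + 2 * A * H ^ (1 + 2 * c₀ - 2 * c₅)) := by gcongr
      _ = r ^ 2 * ((C₅ * 2 ^ m * (4 ^ D * C₁)) * (H ^ (2 * c₅) * H ^ (1 + D * c₅ - e))
          + (C₅ * 2 ^ m * (2 * A)) * (H ^ (2 * c₅) * H ^ (1 + 2 * c₀ - 2 * c₅))) := by
          rw [mul_pow, rpow_sq hH]; ring
      _ ≤ r ^ 2 * H ^ (1 + 2 * c') := by
          rw [h1, h2]
          have h3 := hS.s3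
          have h4 := hS.s4
          gcongr
          linarith
  have b4 : (r * H ^ (1 / 2 + c')) ^ 2 = r ^ 2 * H ^ (1 + 2 * c') := by
    rw [mul_pow, rpow_sq hH]; congr 2; ring
  have b5 : x ^ 2 ≤ (r * H ^ (1 / 2 + c')) ^ 2 := by rw [b4]; exact hx.trans b3
  exact (abs_le_of_sq_le_sq' b5 (by positivity)).2

variable {Q : ℕ} {T : Submodule ℝ E} {ν : Measure E} {P : E → E →L[ℝ] E} {K Bad : Set E}
  {δ : ℝ → ℝ} {M τ r R : ℝ} {v v₁ w : E → E}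

/-- **(W5)** in powers of `H` -/
theorem decay_pow (E : Type*) [NormedAddCommGroup E] [InnerProductSpace ℝ E]
    [FiniteDimensional ℝ E] [MeasurableSpace E] [BorelSpace E] (m Q : ℕ) (hm : 1 ≤ m)
    {M C₅ : ℝ} (hM : 0 ≤ M) (hC₅ : 0 ≤ C₅) :
    ∃ τ A : ℝ, 0 < τ ∧ 1 ≤ A ∧ ∀ (T : Submodule ℝ E) (ν : Measure E)
      (P : E → E →L[ℝ] E) (w : E → E) (K Bad : Set E) (δ : ℝ → ℝ) (s H c₀ c₅ r R : ℝ),
      Dat m Q T ν P K δ M τ r → BadS m T ν P Bad (H ^ c₀) τ r R →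
      Hgt m T ν K Bad w C₅ (r * s) R → 0 < H → H ≤ 1 → m * c₅ ≤ c₀ / 2 →
      ∀ t, r * H ^ c₅ ≤ t → 2 * t ≤ R → hV m T w ν t ≤ A * (δ t + H ^ (c₀ / 2))
        * hV m T w ν (2 * t) + A * s ^ 2 * (r / t) ^ 2 := by
  obtain ⟨τ, C, hτ, hC, hdec⟩ := decay_all E m Q hm
  have hCC : 0 ≤ C * C₅ := mul_nonneg (by linarith) hC₅
  refine ⟨τ, C * C₅ + M + 1, hτ, by linarith, ?_⟩
  intro T ν P w K Bad δ s H c₀ c₅ r R hDat hB hw hH hH1 hmc t hat htR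
  have hr := hDat.r_pos
  have hHc : 0 < H ^ c₅ := by positivity
  have ht : 0 < t := lt_of_lt_of_le (by positivity) hat
  have b1 := coef_bad (c₀ := c₀) hr hH hH1 hmc hat
  have b2 := hdec T ν P w K Bad δ (r * s) (H ^ c₀) M C₅ r R hDat hB hw hC₅ t ht htR
  have b3 : 0 ≤ hV m T w ν (2 * t) := hV_nonneg (by positivity)
  have b4 : 0 ≤ δ t := hDat.δ_nn t ht (by linarith [hB.R_le])
  have b5 : (r * s / t) ^ 2 = s ^ 2 * (r / t) ^ 2 := by rw [div_pow, div_pow, mul_pow]; ring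
  rw [b5] at b2
  refine b2.trans ?_
  have b6 : C * C₅ * (δ t + H ^ c₀ * (r / t) ^ m)
      ≤ (C * C₅ + M + 1) * (δ t + H ^ (c₀ / 2)) := by
    have : 0 ≤ H ^ c₀ * (r / t) ^ m := by positivity
    gcongr
    linarith
  have b7 : M * (s ^ 2 * (r / t) ^ 2) ≤ (C * C₅ + M + 1) * s ^ 2 * (r / t) ^ 2 := by
    rw [← mul_assoc]
    have : M ≤ C * C₅ + M + 1 := by linarith
    gcongr
  gcongr

end Vale.Agent.P214.W5
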