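import Vale.Agent.P214.W5.Step
import Vale.Agent.P214.STR.Props
import Vale.Agent.P214.WIN.StepOne

set_option linter.all false

/-! Block WINDOWS (W5), (W4), next scale: the one-step results on top of `STR.StepOut`. -/

open Set Filter Topology MeasureTheory Metric
open scoped RealInnerProductSpace ENNReal NNReal ContDiff

namespace Vale.Agent.P214.W5

open Vale.Agent.P214 Vale.Agent.P214.FV
open Vale.Agent.P214.Skel (cylSet om)
open Vale.Agent.P214.WIN

variable {E : Type*} [NormedAddCommGroup E] [InnerProductSpace ℝ E] [FiniteDimensional ℝ E]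
  [MeasurableSpace E] [BorelSpace E]
variable {m n Q : ℕ} {T : Submodule ℝ E} {ν : Measure E} {P : E → E →L[ℝ] E} {K Bad : Set E}
  {δ : ℝ → ℝ} {M τ r R ε ε' : ℝ} {u u' u₁ : Fin n → REF.E m → ℝ}

lemma hV_eq_hN (w : E → E) (t : ℝ) : hV m T (KMS.rel T w) ν t = STR.hN m T w ν t := rfl

lemma refe_mono (hu : Refe ε R u) (h : ε ≤ ε') (hr : r ≤ R) : Refe ε' r u :=
  ⟨hu.smooth, hu.supp, fun a k hk x => (hu.small a k hk x).trans h,
    fun a x hx => hu.exact a x (hx.trans_le hr)⟩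

/-- L5 in the form of `Hgt.sup` -/
lemma sup_of_refe {C₅ : ℝ} (hsup : ∀ (T : Submodule ℝ E) (F : Frame m n T)
    (u : Fin n → REF.E m → ℝ) (Q : ℕ) (r θ h δ : ℝ) (ν : Measure E) (P : E → E →L[ℝ] E),
    Refe ε r u → r ≤ 3 / 16 → 0 < θ → θ < r → Skel.IntCyl m Q T 0 r h δ ν P →
      ∀ y ∈ ν.support, ‖T.starProjection y‖ ≤ r - θ →
        ‖KMS.rel T (F.lift u) y‖ ^ 2 ≤ C₅ * θ⁻¹ ^ m * hE T (F.lift u) ν r)
    {h δ' R₂ : ℝ} (hI : Skel.IntCyl m Q T 0 R₂ h δ' ν P) (hR₂ : R ≤ R₂) (hR : R ≤ 3 / 16)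
    (F : Frame m n T) (hu : Refe ε R u) (t : ℝ) (ht : 0 < t) (htR : 2 * t ≤ R) (y : E)
    (hy : y ∈ ν.support) (hyt : ‖T.starProjection y‖ < t) :
    ‖KMS.rel T (F.lift u) y‖ ^ 2 ≤ C₅ * (t ^ m)⁻¹
      * ∫ y in cylSet T 0 (2 * t), ‖KMS.rel T (F.lift u) y‖ ^ 2 ∂ν := by
  obtain ⟨δ'', hI'⟩ := intCyl_shrink (r := 2 * t) hI (by positivity) (by linarith)
  have h1 := hsup T F u Q (2 * t) t h δ'' ν P (refe_mono hu le_rfl htR) (by linarith) ht
    (by linarith) hI' y hy (by linarith)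
  rwa [inv_pow] at h1

/-- comparison of the square integrals of two nearby heights -/
lemma hV_change {G : Set E} {h t d : ℝ} (hC : CylStat m T G h ν P) (hG : ball 0 t ⊆ G)
    {v v' : E → E} (hv : Continuous v) (hv' : Continuous v') (ht : 0 < t)
    (hd : ∀ y, ‖T.starProjection y‖ < t → ‖v' y - v y‖ ≤ d)
    (hM : ν.real (cylSet T 0 t) ≤ M * t ^ m) :
    hV m T v' ν t ≤ 2 * hV m T v ν t + 2 * M * (d / t) ^ 2 := by
  have hfin := hC.fin
  have i1 := integrableOn_sq hC hG hv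
  have i2 := integrableOn_sq hC hG hv'
  have hd0 : 0 ≤ d := (norm_nonneg _).trans (hd 0 (by simpa using ht))
  have h1 : ∫ y in cylSet T 0 t, ‖v' y‖ ^ 2 ∂ν
      ≤ ∫ y in cylSet T 0 t, (2 * ‖v y‖ ^ 2 + 2 * d ^ 2) ∂ν := by
    refine setIntegral_mono_on i2 ((i1.const_mul 2).add (integrable_const _))
      (TCH.measurableSet_cylSet T 0 t) fun y hy => ?_
    have h2 := hd y (by
      have : T.starProjection y ∈ ball (0:E) t := hy
      rwa [mem_ball_zero_iff] at this)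
    have h3 : ‖v' y‖ ≤ ‖v y‖ + d := by
      calc ‖v' y‖ = ‖v y + (v' y - v y)‖ := by congr 1; abel
        _ ≤ ‖v y‖ + ‖v' y - v y‖ := norm_add_le _ _
        _ ≤ _ := by gcongr
    nlinarith [norm_nonneg (v' y), norm_nonneg (v y), sq_nonneg (‖v y‖ - d)]
  have i3 : IntegrableOn (fun y => 2 * ‖v y‖ ^ 2) (cylSet T 0 t) ν := i1.const_mul 2
  have i4 : IntegrableOn (fun _ => 2 * d ^ 2) (cylSet T 0 t) ν := integrable_const _
  rw [integral_add i3 i4, integral_const_mul, setIntegral_const, smul_eq_mul] at h1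
  unfold hV
  have ht2 : 0 < t ^ (m + 2) := by positivity
  calc (t ^ (m + 2))⁻¹ * ∫ y in cylSet T 0 t, ‖v' y‖ ^ 2 ∂ν
      ≤ (t ^ (m + 2))⁻¹ * (2 * (∫ y in cylSet T 0 t, ‖v y‖ ^ 2 ∂ν) + M * t ^ m * (2 * d ^ 2)) := by
        gcongr
        exact h1.trans (by gcongr)
    _ = _ := by
        rw [div_pow, show t ^ (m + 2) = t ^ m * t ^ 2 by ring]
        field_simp

/-- monotonicity of the normalised height up to constants -/
lemma hV_le_of_le {G : Set E} {h t : ℝ} (hC : CylStat m T G h ν P) (hG : ball 0 r ⊆ G)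
    {v : E → E} (hv : Continuous v) (ht : 0 < t) (htr : t ≤ r) (hrt : r ≤ 4 * t) :
    hV m T v ν t ≤ 4 ^ (m + 2) * hV m T v ν r := by
  have hfin := hC.fin
  have hr : 0 < r := ht.trans_le htr
  have i1 := integrableOn_sq hC hG hv
  have hsub : cylSet T 0 t ⊆ cylSet T 0 r := fun y hy => ball_subset_ball htr hy
  have h1 : ∫ y in cylSet T 0 t, ‖v y‖ ^ 2 ∂ν ≤ ∫ y in cylSet T 0 r, ‖v y‖ ^ 2 ∂ν :=
    setIntegral_mono_set i1 (Eventually.of_forall fun y => sq_nonneg _) hsub.eventuallyLE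
  have h0 : 0 ≤ ∫ y in cylSet T 0 r, ‖v y‖ ^ 2 ∂ν := integral_nonneg fun _ => sq_nonneg _
  unfold hV
  have h2 : (t ^ (m + 2))⁻¹ ≤ 4 ^ (m + 2) * (r ^ (m + 2))⁻¹ := by
    have h3 : r ^ (m + 2) ≤ (4 * t) ^ (m + 2) := by gcongr
    rw [mul_pow] at h3
    rw [← div_eq_mul_inv, le_div_iff₀ (by positivity), inv_mul_le_iff₀ (by positivity)]
    linarith
  calc _ ≤ 4 ^ (m + 2) * (r ^ (m + 2))⁻¹ * ∫ y in cylSet T 0 r, ‖v y‖ ^ 2 ∂ν :=
        mul_le_mul h2 h1 (integral_nonneg fun _ => sq_nonneg _) (by positivity)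
    _ = _ := by ring

/-- the value of a lift at the origin -/
lemma rel_zero (F : Frame m n T) : KMS.rel T (F.lift u) 0 = -F.lift u 0 := by
  unfold KMS.rel; simp

lemma xc_zero' (F : Frame m n T) : F.xc (0:E) = 0 := by unfold Frame.xc; simp

/-- translated references -/
lemma lift_transl (F : Frame m n T) (h : ∀ a x, ‖x‖ < R → u₁ a x = u' a x - u' a 0) {y : E}
    (hy : ‖T.starProjection y‖ < R) :
    KMS.rel T (F.lift u₁) y = KMS.rel T (F.lift u') y - KMS.rel T (F.lift u') 0 := by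
  have h1 : F.lift u₁ y = F.lift u' y - F.lift u' 0 := by
    unfold Frame.lift
    rw [← Finset.sum_sub_distrib]
    refine Finset.sum_congr rfl fun a _ => ?_
    rw [xc_zero', h a _ (by rwa [KMS.norm_xc]), sub_smul]
  rw [rel_zero]
  unfold KMS.rel
  rw [h1]; abel

end Vale.Agent.P214.W5
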