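import Vale.Agent.P214.W5.Step
import Vale.Agent.P214.SUB.C
import Vale.Agent.P214.WIN.Props

set_option linter.all false

/-! Block WINDOWS (W5): the data at a good point. -/

open Set Filter Topology MeasureTheory Metric
open scoped RealInnerProductSpace ENNReal NNReal

namespace Vale.Agent.P214.W5

open Vale.Agent.P214 Vale.Agent.P214.FV
open Vale.Agent.P214.Skel (cylSet om)

variable {E : Type*} [NormedAddCommGroup E] [InnerProductSpace ℝ E] [FiniteDimensional ℝ E]
  [MeasurableSpace E] [BorelSpace E]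
variable {m : ℕ} {U : Set E} {V : IntegralVarifold m U} {x z : E} {r₁ : ℝ}

/-- the compact set of the points of density `≥ Q` near the (translated) good point -/
def KC (V : IntegralVarifold m U) (x : E) (r₁ : ℝ) : Set E := SUB.KK V x ∩ closedBall 0 (r₁ / 2)

/-- density defect of the projection of `KC` -/
noncomputable def dl (V : IntegralVarifold m U) (x : E) (r₁ : ℝ) (t : ℝ) : ℝ :=
  (μH[m] (((V.tangent x : Set E) ∩ ball 0 t)
    \ ((V.tangent x).starProjection '' KC V x r₁))).toReal / t ^ m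

lemma isCompact_KC (hU : IsOpen U) (hr₁ : 0 < r₁) (hb : closedBall x (2 * r₁) ⊆ U) :
    IsCompact (KC V x r₁) := by
  have h1 := DEN.isCompact_KQ_inter hU V (V.mult x) (x := x) (r := r₁ / 2)
    ((closedBall_subset_closedBall (by linarith)).trans hb)
  have h2 : KC V x r₁ = (fun y => y - x) '' (DEN.KQ V (V.mult x) ∩ closedBall x (r₁ / 2)) := by
    ext y
    constructor
    · rintro ⟨h3, h4⟩
      refine ⟨y + x, ⟨h3, ?_⟩, by simp⟩
      rw [mem_closedBall, dist_eq_norm, add_sub_cancel_right]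
      rwa [mem_closedBall_zero_iff] at h4
    · rintro ⟨y', ⟨h3, h4⟩, rfl⟩
      refine ⟨?_, ?_⟩
      · show y' - x + x ∈ DEN.KQ V (V.mult x)
        rwa [sub_add_cancel]
      · rw [mem_closedBall_zero_iff]
        rwa [mem_closedBall, dist_eq_norm] at h4
  rw [h2]
  exact h1.image (by fun_prop)

/-- the points of `KC` have high density for the restricted measure -/
lemma highD_KC (hr₁ : 0 < r₁) (hb : closedBall x (2 * r₁) ⊆ U) (hz : z ∈ KC V x r₁) :
    WIN.HighD m (V.mult x) (V.tangent x) (SUB.cylMeas V x r₁) (r₁ / 2) z := by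
  intro s hs hzs
  have h1 : ‖z‖ ≤ r₁ / 2 := by have := hz.2; rwa [mem_closedBall_zero_iff] at this
  have hp : ∀ w : E, ‖(V.tangent x).starProjection w‖ ≤ ‖w‖ := norm_star_le _
  have hq : ∀ w : E, ‖FV.co (V.tangent x) w‖ ≤ ‖w‖ := FV.norm_co_le _
  have hs2 : s < r₁ / 2 := by linarith [norm_nonneg ((V.tangent x).starProjection z)]
  refine SUB.ratio_KK hb hr₁ hz.1 hs ?_ ?_
  · intro y hy
    rw [mem_ball, dist_eq_norm] at hy
    rw [SUB.mem_reg]
    have e : y = z + (y - z) := by abel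
    constructor
    · calc ‖(V.tangent x).starProjection y‖
          = ‖(V.tangent x).starProjection z + (V.tangent x).starProjection (y - z)‖ := by
            rw [← map_add, ← e]
        _ ≤ ‖(V.tangent x).starProjection z‖ + ‖(V.tangent x).starProjection (y - z)‖ :=
            norm_add_le _ _
        _ < r₁ := by linarith [hp (y - z)]
    · calc ‖FV.co (V.tangent x) y‖
          = ‖FV.co (V.tangent x) z + FV.co (V.tangent x) (y - z)‖ := by
            rw [← map_add, ← e]
        _ ≤ ‖FV.co (V.tangent x) z‖ + ‖FV.co (V.tangent x) (y - z)‖ := norm_add_le _ _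
        _ ≤ r₁ := by linarith [hq z, hq (y - z)]
  · intro y hy
    rw [mem_closedBall, dist_eq_norm] at hy
    rw [mem_ball_zero_iff]
    calc ‖y‖ = ‖z + (y - z)‖ := by congr 1; abel
      _ ≤ ‖z‖ + ‖y - z‖ := norm_add_le _ _
      _ < 2 * r₁ := by linarith

lemma zero_mem_KC (hx : Skel.GoodPt V x) (hr₁ : 0 < r₁) : (0:E) ∈ KC V x r₁ :=
  ⟨SUB.zero_mem_KK hx, by rw [mem_closedBall_zero_iff, norm_zero]; positivity⟩

/-- positive ratios at small scales: the point is in the support -/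
lemma mem_support_of_ratio {μ : Measure E} [IsFiniteMeasure μ] {z : E} {s₀ : ℝ} (hs₀ : 0 < s₀)
    (h : ∀ s, 0 < s → s < s₀ → 0 < ratio m μ z s) : z ∈ μ.support := by
  rw [Measure.mem_support_iff_forall]
  intro W hW
  obtain ⟨ρ, hρ, hball⟩ := Metric.mem_nhds_iff.1 hW
  set s := min ρ (s₀ / 2) with hs
  have hs0 : 0 < s := lt_min hρ (by positivity)
  have h1 := h s hs0 ((min_le_right _ _).trans_lt (by linarith))
  have h2 : 0 < μ.real (ball z s) := by
    have h3 : ratio m μ z s * s ^ m ≤ μ.real (ball z s) := by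
      unfold ratio
      rw [div_mul_cancel₀ _ (by positivity)]
      exact cut_integral_le hs0
    have : 0 < ratio m μ z s * s ^ m := by positivity
    linarith
  have h4 : 0 < μ (ball z s) := by
    by_contra hc
    have : μ (ball z s) = 0 := le_antisymm (not_lt.1 hc) (zero_le)
    rw [measureReal_def, this] at h2
    simp at h2
  exact h4.trans_le (measure_mono ((ball_subset_ball (min_le_left _ _)).trans hball))

/-- the density defect tends to zero -/
lemma tendsto_dl (hx : Skel.GoodPt V x) (hr₁ : 0 < r₁) :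
    Tendsto (dl V x r₁) (𝓝[>] 0) (𝓝 0) := by
  rw [Metric.tendsto_nhds]
  intro ε hε
  filter_upwards [SUB.dens_KK hx (half_pos hε), Ioc_mem_nhdsGT (show 0 < r₁ / 2 by positivity)]
    with t ht htr
  have ht0 : 0 < t := htr.1
  have h1 : μH[m] (((V.tangent x : Set E) ∩ ball 0 t)
      \ ((V.tangent x).starProjection '' KC V x r₁)) ≤ ENNReal.ofReal (ε / 2 * t ^ m) := by
    refine (measure_mono ?_).trans ht
    rintro y ⟨⟨hyT, hyb⟩, hyn⟩
    refine ⟨⟨hyT, (mem_ball_zero_iff.1 hyb).le⟩, fun hc => hyn ?_⟩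
    obtain ⟨w, ⟨hw1, hw2⟩, rfl⟩ := hc
    exact ⟨w, ⟨hw1, closedBall_subset_closedBall htr.2 hw2⟩, rfl⟩
  have h2 : dl V x r₁ t ≤ ε / 2 := by
    unfold dl
    rw [div_le_iff₀ (by positivity)]
    exact ENNReal.toReal_le_of_le_ofReal (by positivity) h1
  have h3 : 0 ≤ dl V x r₁ t := div_nonneg ENNReal.toReal_nonneg (by positivity)
  rw [Real.dist_0_eq_abs, abs_of_nonneg h3]
  linarith

/-- **the data of (W5) at a good point** -/
theorem exists_dat (hU : IsOpen U) (hst : V.IsStationary) (hx : Skel.GoodPt V x) {τ : ℝ}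
    (hτ : 0 < τ) : ∀ᶠ r₁ in 𝓝[>] (0:ℝ), 0 < r₁ ∧ closedBall x (2 * r₁) ⊆ U ∧
      Tendsto (dl V x r₁) (𝓝[>] 0) (𝓝 0) ∧ (0:E) ∈ KC V x r₁ ∧
      (0:E) ∈ (SUB.cylMeas V x r₁).support ∧
      (∀ z ∈ KC V x r₁, WIN.HighD m (V.mult x) (V.tangent x) (SUB.cylMeas V x r₁) (r₁ / 2) z) ∧
      ∀ r, 0 < r → r ≤ r₁ / 2 → Dat m (V.mult x) (V.tangent x) (SUB.cylMeas V x r₁)
        (SUB.trP V x) (KC V x r₁) (dl V x r₁) (V.mult x * om m + 1) τ r := by
  have hcg := cg_pos m
  filter_upwards [SUB.subcyl hU hst hx (lt_min hτ one_pos), self_mem_nhdsWithin] with r₁ h1 hr₁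
  have hr₁' : (0:ℝ) < r₁ := hr₁
  obtain ⟨hb, hall⟩ := h1
  have hfin := (hall r₁ hr₁' le_rfl).1.cyl.fin
  have hT := (hall r₁ hr₁' le_rfl).1.cyl.dimT
  have hQ : (1:ℝ) ≤ V.mult x := by exact_mod_cast hx.mult
  have h0 := zero_mem_KC hx hr₁'
  have hH0 := highD_KC hr₁' hb h0
  refine ⟨hr₁', hb, tendsto_dl hx hr₁', h0, ?_, fun z hz => highD_KC hr₁' hb hz,
    fun r hr hrr => ⟨hr, ⟨min τ 1 * (2 * r), ?_⟩, ?_, isCompact_KC hU hr₁' hb, ?_, ?_, ?_, ?_⟩⟩
  · refine mem_support_of_ratio (m := m) (s₀ := r₁ / 2) (by positivity) fun s hs hs2 => ?_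
    have := hH0 s hs (by simpa using hs2)
    have h3 : 0 < (V.mult x : ℝ) * cg m := by positivity
    linarith
  · have h2 := (hall (2 * r) (by positivity) (by linarith)).1
    have h3 : min τ 1 ≤ τ := min_le_left _ _
    exact ⟨h2.cyl, h2.mem, h2.pos, h2.int, h2.mass.trans (by gcongr)⟩
  · refine (hall (2 * r) (by positivity) (by linarith)).2.trans ?_
    have : min τ 1 ≤ τ := min_le_left _ _
    gcongr
  · intro z hz hzr
    refine ⟨(r₁ / 2 - ‖(V.tangent x).starProjection z‖) / 2, by linarith, fun s hs hs2 => ?_⟩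
    exact highD_KC hr₁' hb hz s hs (by linarith)
  · intro t ht htr
    have h2 := (hall t ht (by linarith)).1.mass
    have h3 := (abs_le.1 h2).2
    have h4 : min τ 1 * t ^ m ≤ 1 * t ^ m := by
      have : min τ 1 ≤ 1 := min_le_right _ _
      gcongr
    linarith
  · intro t ht _
    exact div_nonneg ENNReal.toReal_nonneg (by positivity)
  · intro t ht htr
    unfold dl
    rw [div_mul_cancel₀ _ (by positivity), ENNReal.ofReal_toReal]
    refine ((measure_mono (t := DEN.disc (V.tangent x) t) ?_).trans_lt ?_).ne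
    · rintro y ⟨⟨hyT, hyb⟩, -⟩
      exact ⟨hyT, (mem_ball_zero_iff.1 hyb).le⟩
    · rw [DEN.measure_disc hT ht.le]
      exact ENNReal.ofReal_lt_top

end Vale.Agent.P214.W5
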