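import Mathlib.Analysis.SpecialFunctions.Pow.Real
import Mathlib.Analysis.SpecialFunctions.Pow.Asymptotics
import Mathlib.Analysis.SpecialFunctions.Log.Basic

set_option linter.all false

/-! Block WINDOWS (W5), field `decay` of `ABS.Chain.Good` as a theorem of real analysis: the numbers
of the windows sequence, the decay inequality with ratio `7/5` and two comparison inequalities
between the kernel heights `hk` and the heights over cylinders `hn`. -/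

open Set Filter Topology

namespace Vale.Agent.P214.W5

/-- the collar belonging to the height `h` (the same as `WSEQ.th`) -/
noncomputable def thN (h : ℝ) : ℝ := (Real.log h⁻¹)⁻¹ ^ 7

/-- the numbers of the windows sequence -/
structure Num (c c' c₅ c₀ C : ℝ) (p : ℕ) (r h : ℕ → ℝ) (δ : ℝ → ℝ) (hn hk : ℕ → ℝ → ℝ) :
    Prop where
  C_ge : 1 ≤ C
  c_pos : 0 < c
  c_le : c ≤ 1 / 100
  gap : c < 2 * c' - 2 * c₅
  c₅_nn : 0 ≤ c₅
  c₀_pos : 0 < c₀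
  r_pos : ∀ j, 0 < r j
  r_lim : Tendsto r atTop (𝓝 0)
  h_pos : ∀ j, 0 < h j
  h_lt : ∀ j, h j < 1
  h_lim : Tendsto h atTop (𝓝 0)
  succ : ∀ j, h (j + 1) ≤ h j ^ (1 + c)
  th_le : ∀ j, thN (h j) ≤ 1 / 120
  r_ge : ∀ j, r j * h j ^ c₅ ≤ r (j + 1)
  r_le : ∀ j, r (j + 1) ≤ r j * (1 - 12 * thN (h j))
  gt : ∀ j t, r (j + 1) < t → t ≤ r j * (1 - 12 * thN (h j)) → h j ^ (1 + c) < hn (j + 1) t
  nn : ∀ j t, 0 < t → 0 ≤ hn j t
  dec : ∀ j t, r j * h j ^ c₅ ≤ 2 * t → 7 / 5 * t ≤ r j * (1 - 8 * thN (h j)) →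
    hn (j + 1) t ≤ C * (δ t + h j ^ (c₀ / 2)) * hn (j + 1) (7 / 5 * t)
      + C * (r j / t) ^ 2 * h j ^ (1 + 2 * c')
  acc : ∀ j i, j ≤ i → ∀ t, 0 < t → t ≤ r i * (1 - 8 * thN (h i)) →
    hn (i + 1) t ≤ 2 * hn (j + 1) t + C * (r (j + 1) / t) ^ 2 * h j ^ (1 + 4 * c)
  mono : ∀ j s t, 0 < s → s ≤ t → t ≤ 4 * s → t ≤ r j → hn (j + 1) s ≤ C * hn (j + 1) t
  δ_lim : Tendsto δ (𝓝[>] 0) (𝓝 0)
  hk_pos : ∀ j y, r (j + 1) * (1 - 10 * thN (h (j + 1))) ≤ y → y ≤ r j * (1 - 10 * thN (h j)) →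
    0 < hk j y
  hk_lt : ∀ j y, r (j + 1) * (1 - 10 * thN (h (j + 1))) ≤ y → y ≤ r j * (1 - 10 * thN (h j)) →
    hk j y < 1
  K1 : ∀ j y, r (j + 1) * (1 - 10 * thN (h (j + 1))) ≤ y → y ≤ r j * (1 - 10 * thN (h j)) →
    hk j y ≤ C * hn (j + 1) (y * (1 + thN (h j)))
  K2 : ∀ j y, r (j + 1) * (1 - 10 * thN (h (j + 1))) ≤ y → y ≤ r j * (1 - 10 * thN (h j)) →
    ∀ d, h j ^ (1 / 5 : ℝ) ≤ d → d ≤ 1 / 4 → hn (j + 1) (y * (1 - d)) ≤ C * d⁻¹ ^ p * hk j y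

/-- powers beat logarithms -/
lemma log_pow_small (A : ℝ) (p : ℕ) {μ : ℝ} (hμ : 0 < μ) :
    ∃ ε : ℝ, 0 < ε ∧ ∀ H, 0 < H → H ≤ ε → A * (Real.log H⁻¹) ^ p * H ^ μ ≤ 1 := by
  have h1 : Tendsto (fun x : ℝ => A * (Real.log x) ^ p * x ^ (-μ)) atTop (𝓝 0) := by
    have h2 := (isLittleO_log_rpow_rpow_atTop (p : ℝ) hμ).tendsto_div_nhds_zero
    have h3 := h2.const_mul A
    rw [mul_zero] at h3
    refine h3.congr' ?_
    filter_upwards [eventually_gt_atTop 1] with x hx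
    rw [Real.rpow_natCast, Real.rpow_neg (by linarith)]
    ring
  obtain ⟨x₀, hx₀⟩ := eventually_atTop.1 (h1.eventually (gt_mem_nhds one_pos))
  refine ⟨(max x₀ 1)⁻¹, by positivity, fun H hH hHe => ?_⟩
  have h4 : x₀ ≤ H⁻¹ := by
    have : max x₀ 1 ≤ H⁻¹ := by
      rw [le_inv_comm₀ (by positivity) hH]; exact hHe
    exact (le_max_left _ _).trans this
  have h5 := (hx₀ _ h4).le
  rwa [Real.inv_rpow hH.le, Real.rpow_neg hH.le, inv_inv] at h5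

lemma pow_small {η μ : ℝ} (hη : 0 < η) (hμ : 0 < μ) :
    ∃ ε : ℝ, 0 < ε ∧ ∀ H, 0 < H → H ≤ ε → H ^ μ ≤ η := by
  refine ⟨η ^ (μ⁻¹), by positivity, fun H hH hHe => ?_⟩
  calc H ^ μ ≤ (η ^ (μ⁻¹)) ^ μ := Real.rpow_le_rpow hH.le hHe hμ.le
    _ = η := by rw [← Real.rpow_mul hη.le, inv_mul_cancel₀ hμ.ne', Real.rpow_one]

section
variable {c c' c₅ c₀ C : ℝ} {p : ℕ} {r h : ℕ → ℝ} {δ : ℝ → ℝ} {hn hk : ℕ → ℝ → ℝ}

/-- smallness of the height at the start of the window used in the proof; `ρ = (1+c)⁻⁶`,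
`b = (1 - ρ)/6` -/
structure SmN (c c' c₅ c₀ C b η : ℝ) (p : ℕ) (H : ℝ) : Prop where
  s0 : H < 1
  s1 : 24 ≤ b * Real.log H⁻¹
  s2 : H ^ (1 / 5 : ℝ) ≤ b * (Real.log H⁻¹)⁻¹ ^ 6 / 2
  s3 : C * (b * (Real.log H⁻¹)⁻¹ ^ 6 / 2)⁻¹ ^ p * H ^ (min c (2 * c' - 2 * c₅ - c) / 2) ≤ 1
  s4 : H ^ (c₀ / 2) ≤ η
  s5 : H ^ (min c (2 * c' - 2 * c₅ - c) / 2) ≤ η

lemma exists_smN (hc : 0 < c) (hg : c < 2 * c' - 2 * c₅) (hc₀ : 0 < c₀) {b η : ℝ} (hb : 0 < b)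
    (hη : 0 < η) : ∃ ε : ℝ, 0 < ε ∧ ∀ H, 0 < H → H ≤ ε → SmN c c' c₅ c₀ C b η p H := by
  set μ := min c (2 * c' - 2 * c₅ - c) / 2 with hμ
  have hμ0 : 0 < μ := by
    have : 0 < min c (2 * c' - 2 * c₅ - c) := lt_min hc (by linarith)
    positivity
  obtain ⟨ε₂, hε₂, h2⟩ := log_pow_small (2 / b) 6 (μ := 1 / 5) (by norm_num)
  obtain ⟨ε₃, hε₃, h3⟩ := log_pow_small (C * (2 / b) ^ p) (6 * p) hμ0
  obtain ⟨ε₄, hε₄, h4⟩ := pow_small hη (by positivity : 0 < c₀ / 2)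
  obtain ⟨ε₅, hε₅, h5⟩ := pow_small hη hμ0
  refine ⟨min (min (1 / 2) (Real.exp (-(24 / b)))) (min (min ε₂ ε₃) (min ε₄ ε₅)), by positivity,
    fun H hH hHe => ?_⟩
  have k0 : H ≤ 1 / 2 := hHe.trans ((min_le_left _ _).trans (min_le_left _ _))
  have k1 : H ≤ Real.exp (-(24 / b)) := hHe.trans ((min_le_left _ _).trans (min_le_right _ _))
  have k2 : H ≤ ε₂ := hHe.trans ((min_le_right _ _).trans ((min_le_left _ _).trans (min_le_left _ _)))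
  have k3 : H ≤ ε₃ := hHe.trans ((min_le_right _ _).trans ((min_le_left _ _).trans (min_le_right _ _)))
  have k4 : H ≤ ε₄ := hHe.trans ((min_le_right _ _).trans ((min_le_right _ _).trans (min_le_left _ _)))
  have k5 : H ≤ ε₅ := hHe.trans ((min_le_right _ _).trans ((min_le_right _ _).trans (min_le_right _ _)))
  have hl : 24 / b ≤ Real.log H⁻¹ := by
    rw [Real.log_inv, le_neg]
    calc Real.log H ≤ Real.log (Real.exp (-(24 / b))) := Real.log_le_log hH k1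
      _ = _ := Real.log_exp _
  have hl0 : 0 < Real.log H⁻¹ := lt_of_lt_of_le (by positivity) hl
  refine ⟨by linarith, ?_, ?_, ?_, h4 H hH k4, h5 H hH k5⟩
  · rw [div_le_iff₀ hb] at hl; linarith
  · have e := h2 H hH k2
    have e1 : b * (Real.log H⁻¹)⁻¹ ^ 6 / 2 = (2 / b * Real.log H⁻¹ ^ 6)⁻¹ := by
      field_simp
    rw [e1, ← one_div, le_div_iff₀ (by positivity)]
    linarith
  · have e := h3 H hH k3
    refine le_trans (le_of_eq ?_) e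
    have e1 : (b * (Real.log H⁻¹)⁻¹ ^ 6 / 2)⁻¹ = (2 / b) * Real.log H⁻¹ ^ 6 := by
      field_simp
    rw [e1, mul_pow, ← pow_mul]
    ring

lemma thN_nn {H : ℝ} (h0 : 0 < H) (h1 : H < 1) : 0 < Real.log H⁻¹ ∧ 0 < thN H := by
  have h2 : 0 < Real.log H⁻¹ := Real.log_pos ((one_lt_inv₀ h0).2 h1)
  exact ⟨h2, by unfold thN; positivity⟩

/-- arithmetic of the choice of `y` -/
lemma y_arith {Z l th ρ b rj rj1 : ℝ} (hZ : 0 < Z) (hl : 0 < l) (hl1 : l ≤ 1 / 144)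
    (hth : 0 < th) (hthb : 24 * th ≤ b * l) (hth1 : 12 * th ≤ 1) (hρ : 0 < ρ)
    (hb : 0 < b) (hb1 : b ≤ 1 / 6) (hρb : 1 / 2 * ρ + 3 * b = 1 / 2)
    (h1 : rj1 ≤ Z * (1 + 1 / 2 * (ρ * l))) (h2 : Z * (1 + 1 / 2 * l) < rj) :
    ∃ y, Z ≤ y ∧ y ≤ Z * (1 + 1 / 2 * l) ∧ y ≤ rj * (1 - 12 * th) ∧ rj1 ≤ y ∧
      rj1 < y * (1 - b * l / 2) := by
  have hbl : 0 < b * l := by positivity
  have hρl : 0 < ρ * l := by positivity
  set A := 1 + (1 / 2 * ρ + 2 * b) * l with hA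
  have hA1 : 1 ≤ A := by
    have : 0 ≤ (1 / 2 * ρ + 2 * b) * l := by positivity
    linarith
  have hA2 : A + b * l = 1 + 1 / 2 * l := by
    have e : (1 / 2 * ρ + 3 * b) * l = 1 / 2 * l := by rw [hρb]
    rw [hA]; linarith
  have hA3 : A ≤ 2 := by linarith
  refine ⟨Z * A, ?_, ?_, ?_, ?_, ?_⟩
  · nlinarith
  · have : A ≤ 1 + 1 / 2 * l := by linarith
    gcongr
  · have h3 : A ≤ (1 + 1 / 2 * l) * (1 - 12 * th) := by
      have h4 : (1 + 1 / 2 * l) * (12 * th) ≤ 2 * (12 * th) := by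
        have : 1 + 1 / 2 * l ≤ 2 := by linarith
        gcongr
      linarith
    calc Z * A ≤ Z * ((1 + 1 / 2 * l) * (1 - 12 * th)) := by gcongr
      _ = Z * (1 + 1 / 2 * l) * (1 - 12 * th) := by ring
      _ ≤ rj * (1 - 12 * th) := by
          have : 0 ≤ 1 - 12 * th := by linarith
          exact mul_le_mul_of_nonneg_right h2.le this
  · refine h1.trans ?_
    have : 1 + 1 / 2 * (ρ * l) ≤ A := by rw [hA]; nlinarith
    gcongr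
  · refine lt_of_le_of_lt h1 ?_
    rw [mul_assoc]
    have h3 : A * (b * l / 2) ≤ b * l := by nlinarith
    have : 1 + 1 / 2 * (ρ * l) < A * (1 - b * l / 2) := by
      rw [mul_sub, mul_one]
      have h4 : A = 1 + 1 / 2 * (ρ * l) + 2 * (b * l) := by rw [hA]; ring
      nlinarith
    gcongr

/-- the point `y` above `3x/2` in the window `j`, at which the kernel height is not too small -/
lemma exists_y (N : Num c c' c₅ c₀ C p r h δ hn hk) {ρ b η : ℝ}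
    (hρ : ρ = ((1 + c)⁻¹) ^ 6) (hb : b = (1 - ρ) / 6) {j : ℕ} {Z : ℝ}
    (hS : SmN c c' c₅ c₀ C b η p (h j)) (hZ0 : 0 < Z)
    (hq1 : r (j + 1) ≤ Z * (1 + 1 / 2 * (Real.log (h (j + 1))⁻¹)⁻¹ ^ 6))
    (hq2 : Z * (1 + 1 / 2 * (Real.log (h j)⁻¹)⁻¹ ^ 6) < r j) :
    (Real.log (h j)⁻¹)⁻¹ ^ 6 ≤ 1 / 144 ∧
    b * (Real.log (h j)⁻¹)⁻¹ ^ 6 / 2 ≤ 1 / 20 ∧ 0 < b * (Real.log (h j)⁻¹)⁻¹ ^ 6 / 2 ∧
    r (j + 1) ≤ Z * (1 + 1 / 2 * (Real.log (h j)⁻¹)⁻¹ ^ 6) ∧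
    ∃ y, Z ≤ y ∧ y ≤ Z * (1 + 1 / 2 * (Real.log (h j)⁻¹)⁻¹ ^ 6) ∧
      y ≤ r j * (1 - 12 * thN (h j)) ∧ r (j + 1) ≤ y ∧
      r (j + 1) < y * (1 - b * (Real.log (h j)⁻¹)⁻¹ ^ 6 / 2) := by
  have hc := N.c_pos
  have hH := N.h_pos j
  have hH1 := N.h_lt j
  have hsucc := N.succ j
  have hH' := N.h_pos (j + 1)
  have hthle := N.th_le j
  have hs1 := hS.s1
  obtain ⟨hlam0, hth0⟩ := thN_nn hH hH1
  have hthdef : thN (h j) = (Real.log (h j)⁻¹)⁻¹ * (Real.log (h j)⁻¹)⁻¹ ^ 6 := by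
    unfold thN; ring
  have hnext : (1 + c) * Real.log (h j)⁻¹ ≤ Real.log (h (j + 1))⁻¹ := by
    have h2 := Real.log_le_log hH' hsucc
    rw [Real.log_rpow hH] at h2
    rw [Real.log_inv, Real.log_inv]
    linarith
  have hρ0 : 0 < ρ := by rw [hρ]; positivity
  have hρ1 : ρ < 1 := by
    rw [hρ]
    have h1 : (1 + c)⁻¹ < 1 := inv_lt_one_of_one_lt₀ (by linarith)
    exact pow_lt_one₀ (by positivity) h1 (by norm_num)
  have hb0 : 0 < b := by rw [hb]; linarith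
  have hb1 : b ≤ 1 / 6 := by rw [hb]; linarith
  have hlam' : (Real.log (h (j + 1))⁻¹)⁻¹ ^ 6 ≤ ρ * (Real.log (h j)⁻¹)⁻¹ ^ 6 := by
    have h4 : (Real.log (h (j + 1))⁻¹)⁻¹ ≤ ((1 + c) * Real.log (h j)⁻¹)⁻¹ :=
      inv_anti₀ (by positivity) hnext
    have h5 : 0 ≤ (Real.log (h (j + 1))⁻¹)⁻¹ := by
      have : 0 ≤ (1 + c) * Real.log (h j)⁻¹ := by positivity
      exact inv_nonneg.2 (this.trans hnext)
    rw [hρ, ← mul_pow, ← mul_inv]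
    exact pow_le_pow_left₀ h5 h4 6
  generalize Real.log (h j)⁻¹ = lam at *
  have hlamb : 144 ≤ lam := by nlinarith
  have hlinv : lam⁻¹ ≤ 1 / 144 := by
    rw [inv_le_comm₀ hlam0 (by norm_num)]; norm_num; exact hlamb
  have hl1 : lam⁻¹ ^ 6 ≤ 1 / 144 := by
    calc lam⁻¹ ^ 6 ≤ (1 / 144) ^ 6 := pow_le_pow_left₀ (by positivity) hlinv 6
      _ ≤ 1 / 144 := by norm_num
  have hl0 : 0 < lam⁻¹ ^ 6 := by positivity
  have hthb : 24 * thN (h j) ≤ b * lam⁻¹ ^ 6 := by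
    rw [hthdef]
    have h1 : 24 * lam⁻¹ ≤ b := by
      rw [← div_eq_mul_inv, div_le_iff₀ hlam0]; exact hs1
    calc 24 * (lam⁻¹ * lam⁻¹ ^ 6) = 24 * lam⁻¹ * lam⁻¹ ^ 6 := by ring
      _ ≤ b * lam⁻¹ ^ 6 := by gcongr
  have hr1 : r (j + 1) ≤ Z * (1 + 1 / 2 * (ρ * lam⁻¹ ^ 6)) := hq1.trans (by gcongr)
  generalize lam⁻¹ ^ 6 = l at *
  refine ⟨hl1, by nlinarith, by positivity, hr1.trans ?_, ?_⟩
  · have : ρ * l ≤ l := by nlinarith
    gcongr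
  · exact y_arith hZ0 hl0 hl1 hth0 hthb (by linarith) hρ0 hb0 hb1 (by rw [hb]; ring) hr1 hq2

/-- the consequences of `Bdd` at the point `y` -/
lemma kernel_le (N : Num c c' c₅ c₀ C p r h δ hn hk) {b η : ℝ} {j : ℕ} {y Z t S : ℝ}
    (hS : SmN c c' c₅ c₀ C b η p (h j)) (hZ0 : 0 < Z) (hZt : Z ≤ t)
    (hB : r (j + 1) * (1 - 10 * thN (h (j + 1))) ≤ y → y ≤ r j * (1 - 10 * thN (h j)) →
      y ≤ t * (1 + ((Real.log (hk j y)⁻¹)⁻¹) ^ 6) → hk j y ≤ S)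
    (hd : b * (Real.log (h j)⁻¹)⁻¹ ^ 6 / 2 ≤ 1 / 20) (hd0 : 0 < b * (Real.log (h j)⁻¹)⁻¹ ^ 6 / 2)
    (hZy : Z ≤ y) (hyZ : y ≤ Z * (1 + 1 / 2 * (Real.log (h j)⁻¹)⁻¹ ^ 6))
    (hyr : y ≤ r j * (1 - 12 * thN (h j))) (hry : r (j + 1) ≤ y)
    (hyd : r (j + 1) < y * (1 - b * (Real.log (h j)⁻¹)⁻¹ ^ 6 / 2)) :
    r (j + 1) * (1 - 10 * thN (h (j + 1))) ≤ y ∧ y ≤ r j * (1 - 10 * thN (h j)) ∧
    hk j y ≤ S ∧ 0 < S ∧
    h j ^ (1 + c + min c (2 * c' - 2 * c₅ - c) / 2) ≤ S := by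
  have hC := N.C_ge
  have hc := N.c_pos
  have hcl := N.c_le
  have hH := N.h_pos j
  have hH1 := N.h_lt j
  have hgap := N.gap
  obtain ⟨hlam0, hth0⟩ := thN_nn hH hH1
  obtain ⟨hlam0', hth0'⟩ := thN_nn (N.h_pos (j + 1)) (N.h_lt (j + 1))
  have hy0 : 0 < y := hZ0.trans_le hZy
  have hyT : y ≤ r j * (1 - 10 * thN (h j)) := by
    refine hyr.trans ?_
    have := N.r_pos j
    gcongr
    linarith
  have hyT' : r (j + 1) * (1 - 10 * thN (h (j + 1))) ≤ y :=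
    (mul_le_of_le_one_right (N.r_pos _).le (by linarith)).trans hry
  have hgt := N.gt j _ hyd (by
    refine le_trans ?_ hyr
    exact mul_le_of_le_one_right hy0.le (by linarith))
  have hK2 := N.K2 j y hyT' hyT _ hS.s2 (by linarith)
  have hkpos := N.hk_pos j y hyT' hyT
  have hklt := N.hk_lt j y hyT' hyT
  have hs3 := hS.s3
  have hμ0 : 0 < min c (2 * c' - 2 * c₅ - c) / 2 := by
    have : 0 < min c (2 * c' - 2 * c₅ - c) := lt_min hc (by linarith)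
    positivity
  have hμc : min c (2 * c' - 2 * c₅ - c) / 2 ≤ c / 2 := by
    have := min_le_left c (2 * c' - 2 * c₅ - c)
    linarith
  generalize min c (2 * c' - 2 * c₅ - c) / 2 = μ at *
  generalize b * (Real.log (h j)⁻¹)⁻¹ ^ 6 / 2 = d at *
  have hHμ : 0 < h j ^ μ := by positivity
  have hlow : h j ^ (1 + c + μ) ≤ hk j y := by
    have h1 : h j ^ (1 + c) ≤ C * d⁻¹ ^ p * hk j y := hgt.le.trans hK2
    calc h j ^ (1 + c + μ) = h j ^ (1 + c) * h j ^ μ := Real.rpow_add hH _ _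
      _ ≤ C * d⁻¹ ^ p * hk j y * h j ^ μ := by gcongr
      _ = (C * d⁻¹ ^ p * h j ^ μ) * hk j y := by ring
      _ ≤ 1 * hk j y := by gcongr
      _ = _ := one_mul _
  have hkS : hk j y ≤ S := by
    refine hB hyT' hyT ?_
    have h1 : Real.log (hk j y)⁻¹ ≤ (1 + 2 * c) * Real.log (h j)⁻¹ := by
      have h2 : h j ^ (1 + 2 * c) ≤ hk j y :=
        (Real.rpow_le_rpow_of_exponent_ge hH hH1.le (by linarith)).trans hlow
      have h3 := Real.log_le_log (by positivity) h2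
      rw [Real.log_rpow hH] at h3
      rw [Real.log_inv, Real.log_inv]
      linarith
    have h2 : 0 < Real.log (hk j y)⁻¹ := Real.log_pos ((one_lt_inv₀ hkpos).2 hklt)
    have h3 : 1 / 2 * (Real.log (h j)⁻¹)⁻¹ ^ 6 ≤ (Real.log (hk j y)⁻¹)⁻¹ ^ 6 := by
      have h4 : ((1 + 2 * c) * Real.log (h j)⁻¹)⁻¹ ≤ (Real.log (hk j y)⁻¹)⁻¹ := inv_anti₀ h2 h1
      have h5 : (((1 + 2 * c) * Real.log (h j)⁻¹)⁻¹) ^ 6 ≤ (Real.log (hk j y)⁻¹)⁻¹ ^ 6 :=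
        pow_le_pow_left₀ (by positivity) h4 6
      refine le_trans ?_ h5
      rw [mul_inv, mul_pow]
      have h6 : (1:ℝ) / 2 ≤ (1 + 2 * c)⁻¹ ^ 6 := by
        rw [inv_pow, ← one_div, one_div_le_one_div (by norm_num) (by positivity)]
        calc (1 + 2 * c) ^ 6 ≤ (1 + 2 * (1 / 100)) ^ 6 := by gcongr
          _ ≤ 2 := by norm_num
      gcongr
    have ht0 : 0 ≤ t := hZ0.le.trans hZt
    calc y ≤ Z * (1 + 1 / 2 * (Real.log (h j)⁻¹)⁻¹ ^ 6) := hyZ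
      _ ≤ t * (1 + (Real.log (hk j y)⁻¹)⁻¹ ^ 6) := by gcongr
  exact ⟨hyT', hyT, hkS, hkpos.trans_le hkS, hlow.trans hkS⟩

/-- the main term and the error term at the reference of the window `j` -/
lemma mid_le (N : Num c c' c₅ c₀ C p r h δ hn hk) {b η : ℝ} {j : ℕ} {x x' y t S : ℝ}
    (hS : SmN c c' c₅ c₀ C b η p (h j)) (hδ : δ x' ≤ η) (hx0 : 0 < x) (hxx' : x ≤ x')
    (hx'x : x' ≤ x * (121 / 120)) (hZy : 3 / 2 * x ≤ y) (hyZ : y ≤ 3 / 2 * x * 2)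
    (hyr : y ≤ r j * (1 - 12 * thN (h j)))
    (hT1 : r (j + 1) * (1 - 10 * thN (h (j + 1))) ≤ y) (hT2 : y ≤ r j * (1 - 10 * thN (h j)))
    (hkS : hk j y ≤ S) (hS0 : 0 < S)
    (hHS : h j ^ (1 + c + min c (2 * c' - 2 * c₅ - c) / 2) ≤ S) (hr2 : r (j + 1) ≤ 2 * x')
    (hd4 : h j ^ (1 / 5 : ℝ) ≤ 1 / 20) (hη0 : 0 < η) :
    hn (j + 1) x' ≤ (2 * C ^ 3 * 20 ^ p + 4 * C) * η * S ∧ h j ^ (1 + 4 * c) ≤ η * S := by
  have hC := N.C_ge
  have hc := N.c_pos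
  have hH := N.h_pos j
  have hH1 := N.h_lt j
  have hgap := N.gap
  have hrpos := N.r_pos j
  have hrpos1 := N.r_pos (j + 1)
  obtain ⟨hlam0, hth0⟩ := thN_nn hH hH1
  have hx'0 : 0 < x' := hx0.trans_le hxx'
  have hD := N.dec j x' ((N.r_ge j).trans hr2) (by
    refine le_trans (by linarith) (hyr.trans ?_)
    gcongr
    linarith)
  have hge := (N.r_ge j).trans hr2
  have hmono := N.mono j (7 / 5 * x') (y * (1 - 1 / 20)) (by positivity) (by linarith)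
    (by linarith) (by
      have h2 : y ≤ r j := hyr.trans (mul_le_of_le_one_right hrpos.le (by linarith))
      nlinarith)
  have hK2 := N.K2 j y hT1 hT2 (1 / 20) hd4 (by norm_num)
  have e20 : ((1:ℝ) / 20)⁻¹ = 20 := by norm_num
  rw [e20] at hK2
  have hnn := N.nn (j + 1) (7 / 5 * x') (by positivity)
  have hs4 := hS.s4
  have hs5 := hS.s5
  have hμ0 : 0 < min c (2 * c' - 2 * c₅ - c) / 2 := by
    have : 0 < min c (2 * c' - 2 * c₅ - c) := lt_min hc (by linarith)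
    positivity
  have hμc : min c (2 * c' - 2 * c₅ - c) / 2 ≤ c / 2 := by
    have := min_le_left c (2 * c' - 2 * c₅ - c)
    linarith
  have hμg : 2 * (min c (2 * c' - 2 * c₅ - c) / 2) ≤ 2 * c' - 2 * c₅ - c := by
    have := min_le_right c (2 * c' - 2 * c₅ - c)
    linarith
  generalize min c (2 * c' - 2 * c₅ - c) / 2 = μ at *
  generalize h j = H at *
  generalize hn (j + 1) x' = X at *
  generalize hn (j + 1) (7 / 5 * x') = Y at *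
  generalize hn (j + 1) (y * (1 - 1 / 20)) = W at *
  generalize r (j + 1) = r1 at *
  generalize r j = rj at *
  generalize δ x' = dx at *
  have hpow : ∀ q, μ + (1 + c + μ) ≤ q → H ^ q ≤ η * S := by
    intro q hq
    calc H ^ q ≤ H ^ (μ + (1 + c + μ)) := Real.rpow_le_rpow_of_exponent_ge hH hH1.le hq
      _ = H ^ μ * H ^ (1 + c + μ) := Real.rpow_add hH _ _
      _ ≤ η * S := mul_le_mul hs5 hHS (by positivity) hη0.le
  refine ⟨?_, hpow _ (by linarith)⟩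
  have hD2 : (rj / x') ^ 2 * H ^ (1 + 2 * c') ≤ 4 * H ^ (1 + 2 * c' - 2 * c₅) := by
    have hHc : 0 < H ^ c₅ := by positivity
    have h1 : rj / x' ≤ 2 * H ^ (-c₅) := by
      rw [div_le_iff₀ hx'0, Real.rpow_neg hH.le]
      calc rj = rj * H ^ c₅ * (H ^ c₅)⁻¹ := by field_simp
        _ ≤ 2 * x' * (H ^ c₅)⁻¹ := by gcongr
        _ = _ := by ring
    have h3 : 0 ≤ rj / x' := by positivity
    calc (rj / x') ^ 2 * H ^ (1 + 2 * c') ≤ (2 * H ^ (-c₅)) ^ 2 * H ^ (1 + 2 * c') := by gcongr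
      _ = 4 * (H ^ (-c₅) * H ^ (-c₅) * H ^ (1 + 2 * c')) := by ring
      _ = 4 * H ^ (1 + 2 * c' - 2 * c₅) := by
          rw [← Real.rpow_add hH, ← Real.rpow_add hH]; congr 2; ring
  have hE1 : H ^ (1 + 2 * c' - 2 * c₅) ≤ η * S := hpow _ (by linarith)
  have hY : Y ≤ C ^ 2 * 20 ^ p * S := by
    calc Y ≤ C * (C * 20 ^ p * hk j y) := hmono.trans (by gcongr)
      _ ≤ C * (C * 20 ^ p * S) := by gcongr
      _ = _ := by ring
  have e1 : dx + H ^ (c₀ / 2) ≤ η + η := add_le_add hδ hs4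
  have e2 : (rj / x') ^ 2 * H ^ (1 + 2 * c') ≤ 4 * (η * S) := hD2.trans (by gcongr)
  have e3 : C * (dx + H ^ (c₀ / 2)) * Y ≤ C * (η + η) * (C ^ 2 * 20 ^ p * S) := by
    calc C * (dx + H ^ (c₀ / 2)) * Y ≤ C * (η + η) * Y := by gcongr
      _ ≤ _ := by gcongr
  have e4 : C * ((rj / x') ^ 2 * H ^ (1 + 2 * c')) ≤ C * (4 * (η * S)) := by gcongr
  calc X ≤ C * (dx + H ^ (c₀ / 2)) * Y + C * (rj / x') ^ 2 * H ^ (1 + 2 * c') := hD
    _ = C * (dx + H ^ (c₀ / 2)) * Y + C * ((rj / x') ^ 2 * H ^ (1 + 2 * c')) := by ring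
    _ ≤ C * (η + η) * (C ^ 2 * 20 ^ p * S) + C * (4 * (η * S)) := add_le_add e3 e4
    _ = _ := by ring

/-- the estimate at one point, with the window `j` fixed -/
lemma decay_pt (N : Num c c' c₅ c₀ C p r h δ hn hk) {ρ b η : ℝ} (hη : 0 < η)
    (hρ : ρ = ((1 + c)⁻¹) ^ 6) (hb : b = (1 - ρ) / 6) {j i : ℕ} {x t S : ℝ}
    (hS : SmN c c' c₅ c₀ C b η p (h j)) (hδ : ∀ s, 0 < s → s ≤ 2 * t → δ s ≤ η)
    (hB : ∀ i x, r (i + 1) * (1 - 10 * thN (h (i + 1))) ≤ x → x ≤ r i * (1 - 10 * thN (h i)) →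
      x ≤ t * (1 + ((Real.log (hk i x)⁻¹)⁻¹) ^ 6) → hk i x ≤ S)
    (hji : j ≤ i) (hx0 : 0 < x) (hxi : r (i + 1) * (1 - 10 * thN (h (i + 1))) ≤ x)
    (hxi' : x ≤ r i * (1 - 10 * thN (h i))) (hxt : x ≤ 2 / 3 * t)
    (hq1 : r (j + 1) ≤ 3 / 2 * x * (1 + 1 / 2 * (Real.log (h (j + 1))⁻¹)⁻¹ ^ 6))
    (hq2 : 3 / 2 * x * (1 + 1 / 2 * (Real.log (h j)⁻¹)⁻¹ ^ 6) < r j) :
    hk i x ≤ (4 * C ^ 4 * 20 ^ p + 12 * C ^ 2) * η * S := by
  have hC := N.C_ge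
  obtain ⟨hl, hd, hd0, hr1, y, hZy, hyZ, hyr, hry, hyd⟩ :=
    exists_y N hρ hb hS (by positivity) hq1 hq2
  obtain ⟨hT1, hT2, hkS, hS0, hHS⟩ := kernel_le N hS (by positivity : 0 < 3 / 2 * x)
    (by linarith) (hB j y) hd hd0 hZy hyZ hyr hry hyd
  obtain ⟨hlami, hthi0⟩ := thN_nn (N.h_pos i) (N.h_lt i)
  have hthi := N.th_le i
  have hri := N.r_pos i
  have hx'r : x * (1 + thN (h i)) ≤ r i * (1 - 8 * thN (h i)) := by
    calc x * (1 + thN (h i)) ≤ r i * (1 - 10 * thN (h i)) * (1 + thN (h i)) := by gcongr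
      _ = r i * ((1 - 10 * thN (h i)) * (1 + thN (h i))) := by ring
      _ ≤ r i * (1 - 8 * thN (h i)) := by
          have : (1 - 10 * thN (h i)) * (1 + thN (h i)) ≤ 1 - 8 * thN (h i) := by nlinarith
          gcongr
  have hA := fun hx' => N.acc j i hji (x * (1 + thN (h i))) hx' hx'r
  have hK1 := N.K1 i x hxi hxi'
  generalize hx' : x * (1 + thN (h i)) = x' at *
  have hxx' : x ≤ x' := by rw [← hx']; exact le_mul_of_one_le_right hx0.le (by linarith)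
  have hx'x : x' ≤ x * (121 / 120) := by rw [← hx']; gcongr; linarith
  have hx'0 : 0 < x' := hx0.trans_le hxx'
  have hr2 : r (j + 1) ≤ 2 * x' := by
    have h1 : 3 / 2 * x * (1 + 1 / 2 * (Real.log (h j)⁻¹)⁻¹ ^ 6) ≤ 3 / 2 * x * (1 + 1 / 2 * (1 / 144)) := by
      gcongr
    linarith
  obtain ⟨hmid, hE⟩ := mid_le (t := t) N hS (hδ x' hx'0 (by linarith)) hx0 hxx' hx'x hZy
    (hyZ.trans (by gcongr; linarith)) hyr hT1 hT2 hkS hS0 hHS hr2 (hS.s2.trans hd) hη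
  have hA := hA hx'0
  have hA2 : (r (j + 1) / x') ^ 2 ≤ 4 := by
    have h1 : r (j + 1) / x' ≤ 2 := by rw [div_le_iff₀ hx'0]; exact hr2
    have h2 : 0 ≤ r (j + 1) / x' := div_nonneg (N.r_pos _).le hx'0.le
    nlinarith
  have hHp : 0 < h j ^ (1 + 4 * c) := Real.rpow_pos_of_pos (N.h_pos j) _
  generalize hn (i + 1) x' = X1 at *
  generalize hn (j + 1) x' = X2 at *
  generalize (r (j + 1) / x') ^ 2 = R2 at *
  generalize h j ^ (1 + 4 * c) = H4 at *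
  have hfin : X1 ≤ (4 * C ^ 3 * 20 ^ p + 12 * C) * η * S := by
    calc X1 ≤ 2 * X2 + C * R2 * H4 := hA
      _ ≤ 2 * ((2 * C ^ 3 * 20 ^ p + 4 * C) * η * S) + C * 4 * (η * S) := by gcongr
      _ = _ := by ring
  calc hk i x ≤ C * X1 := hK1
    _ ≤ C * ((4 * C ^ 3 * 20 ^ p + 12 * C) * η * S) := by gcongr
    _ = _ := by ring

/-- **field `decay`** -/
theorem decay_abs (N : Num c c' c₅ c₀ C p r h δ hn hk) : ∀ η > 0, ∃ t₀ > 0, ∀ k t S,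
    r (k + 1) * (1 - 10 * thN (h (k + 1))) ≤ t → t ≤ r k * (1 - 10 * thN (h k)) → t ≤ t₀ →
    (∀ i x, r (i + 1) * (1 - 10 * thN (h (i + 1))) ≤ x → x ≤ r i * (1 - 10 * thN (h i)) →
      x ≤ t * (1 + ((Real.log (hk i x)⁻¹)⁻¹) ^ 6) → hk i x ≤ S) →
    ∀ i x, r (i + 1) * (1 - 10 * thN (h (i + 1))) ≤ x → x ≤ r i * (1 - 10 * thN (h i)) →
      x ≤ 2 / 3 * t → hk i x ≤ η * S := by
  intro η hη
  have hC := N.C_ge
  have hc := N.c_pos
  set A : ℝ := 4 * C ^ 4 * 20 ^ p + 12 * C ^ 2 with hA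
  have hA0 : 0 < A := by positivity
  set ρ : ℝ := ((1 + c)⁻¹) ^ 6 with hρ
  have hρ1 : ρ < 1 := by
    have h1 : (1 + c)⁻¹ < 1 := inv_lt_one_of_one_lt₀ (by linarith)
    exact pow_lt_one₀ (by positivity) h1 (by norm_num)
  set b : ℝ := (1 - ρ) / 6 with hb
  have hb0 : 0 < b := by rw [hb]; linarith
  obtain ⟨ε, hε, hsm⟩ := exists_smN (C := C) (p := p) hc N.gap N.c₀_pos hb0
    (by positivity : 0 < η / A)
  obtain ⟨n₀, hn₀⟩ := eventually_atTop.1 (N.h_lim.eventually (ge_mem_nhds hε))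
  obtain ⟨t₁, ht₁, hδ⟩ : ∃ t₁ : ℝ, 0 < t₁ ∧ ∀ s, 0 < s → s ≤ t₁ → δ s ≤ η / A := by
    have h1 := N.δ_lim.eventually (ge_mem_nhds (by positivity : 0 < η / A))
    obtain ⟨t₁, ht₁, h2⟩ := mem_nhdsGT_iff_exists_Ioc_subset.1 h1
    exact ⟨t₁, ht₁, fun s hs hs2 => h2 ⟨hs, hs2⟩⟩
  obtain ⟨t₂, ht₂, hr⟩ : ∃ t₂ : ℝ, 0 < t₂ ∧ ∀ j ≤ n₀, t₂ ≤ r j := by
    refine ⟨(Finset.range (n₀ + 1)).inf' ⟨0, by simp⟩ r, ?_, fun j hj => ?_⟩
    · exact (Finset.lt_inf'_iff _).2 fun j _ => N.r_pos j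
    · exact Finset.inf'_le _ (by simp; omega)
  refine ⟨min (t₁ / 2) (t₂ / 4), by positivity, ?_⟩
  intro k t S hk1 hk2 ht hB i x hxi hxi' hxt
  have ht1 : t ≤ t₁ / 2 := ht.trans (min_le_left _ _)
  have ht2 : t ≤ t₂ / 4 := ht.trans (min_le_right _ _)
  have hpos : ∀ j, 0 < Real.log (h j)⁻¹ := fun j =>
    Real.log_pos ((one_lt_inv₀ (N.h_pos _)).2 (N.h_lt _))
  have hx0 : 0 < x := by
    refine lt_of_lt_of_le ?_ hxi
    have := N.r_pos (i + 1)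
    have := N.th_le (i + 1)
    exact mul_pos (N.r_pos _) (by linarith)
  -- the index
  have hex : ∃ q, r q ≤ 3 / 2 * x * (1 + 1 / 2 * (Real.log (h q)⁻¹)⁻¹ ^ 6) := by
    obtain ⟨q, hq⟩ := (N.r_lim.eventually (ge_mem_nhds (by positivity : 0 < 3 / 2 * x))).exists
    refine ⟨q, hq.trans ?_⟩
    have := hpos q
    exact le_mul_of_one_le_right (by positivity) (by
      have : 0 ≤ 1 / 2 * (Real.log (h q)⁻¹)⁻¹ ^ 6 := by positivity
      linarith)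
  classical
  set q := Nat.find hex with hq
  have hq1 := Nat.find_spec hex
  rw [← hq] at hq1
  have hq2 : ∀ j, j < q → ¬ (r j ≤ 3 / 2 * x * (1 + 1 / 2 * (Real.log (h j)⁻¹)⁻¹ ^ 6)) :=
    fun j hj => Nat.find_min hex hj
  have hinv1 : ∀ j, (Real.log (h j)⁻¹)⁻¹ ≤ 1 := by
    intro j
    by_contra hcon
    rw [not_le] at hcon
    have h1 := N.th_le j
    unfold thN at h1
    have h2 : (1:ℝ) < (Real.log (h j)⁻¹)⁻¹ ^ 7 := one_lt_pow₀ hcon (by norm_num)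
    linarith
  have hqn : n₀ < q := by
    by_contra hcon
    rw [not_lt] at hcon
    have h1 := hr q hcon
    have h2 : (Real.log (h q)⁻¹)⁻¹ ^ 6 ≤ 1 :=
      pow_le_one₀ (inv_nonneg.2 (hpos q).le) (hinv1 q)
    have h3 : r q ≤ 3 / 2 * x * 2 := hq1.trans (by gcongr; linarith)
    linarith
  obtain ⟨j, hj⟩ : ∃ j, q = j + 1 := ⟨q - 1, by omega⟩
  have hji : j ≤ i := by
    have h1 : q ≤ i + 1 := by
      refine Nat.find_min' hex ?_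
      have h2 := N.th_le (i + 1)
      have h3 := N.r_pos (i + 1)
      have h4 : r (i + 1) ≤ 3 / 2 * x := by nlinarith
      refine h4.trans ?_
      have := hpos (i + 1)
      exact le_mul_of_one_le_right (by positivity) (by
        have : 0 ≤ 1 / 2 * (Real.log (h (i + 1))⁻¹)⁻¹ ^ 6 := by positivity
        linarith)
    omega
  have hS := hsm (h j) (N.h_pos j) (hn₀ j (by omega))
  have hres := decay_pt N (by positivity) hρ hb hS (t := t) (S := S)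
    (fun s hs hs2 => hδ s hs (by linarith)) hB hji hx0 hxi hxi' hxt (by rw [← hj]; exact hq1)
    (not_le.1 (hq2 j (by omega)))
  have hfin : A * (η / A) = η := by field_simp
  rwa [← hA, hfin] at hres

end

end Vale.Agent.P214.W5
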