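import Vale.Agent.P214.W5.OneStep

set_option linter.all false

/-! Block WINDOWS (W5): the decay inequality with the ratio `7/5` (needed for `Good.decay`, where
the ratio of the scales is `3/2`). -/

open Set Filter Topology MeasureTheory Metric
open scoped RealInnerProductSpace ENNReal NNReal ContDiff

namespace Vale.Agent.P214.W5

open Vale.Agent.P214 Vale.Agent.P214.FV
open Vale.Agent.P214.Skel (cylSet om)
open Vale.Agent.P214.WIN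

/-- **(W5) with the ratio `7/5`** -/
theorem decay_lam (E : Type*) [NormedAddCommGroup E] [InnerProductSpace ℝ E]
    [FiniteDimensional ℝ E] [MeasurableSpace E] [BorelSpace E] (m Q : ℕ) (hm : 1 ≤ m) :
    ∃ τ C : ℝ, 0 < τ ∧ 1 ≤ C ∧ ∀ (T : Submodule ℝ E) (ν : Measure E)
      (P : E → E →L[ℝ] E) (v : E → E) (K Bad : Set E) (δ : ℝ → ℝ) (σ β M C₅ r R : ℝ),
      Dat m Q T ν P K δ M τ r → BadS m T ν P Bad β τ r R → Continuous v →
      (∀ z ∈ K, ‖T.starProjection z‖ < R → T.starProjection z ∉ Bad → ‖v z‖ ≤ σ) → 0 ≤ C₅ →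
      ∀ t, 0 < t → 7 / 5 * t ≤ R →
        (∀ y ∈ ν.support, ‖T.starProjection y‖ < t →
          ‖v y‖ ^ 2 ≤ C₅ * (t ^ m)⁻¹ * ∫ y in cylSet T 0 (7 / 5 * t), ‖v y‖ ^ 2 ∂ν) →
        hV m T v ν t ≤ C * C₅ * (δ t + β * (r / t) ^ m) * hV m T v ν (7 / 5 * t)
          + M * (σ / t) ^ 2 := by
  obtain ⟨τ, C, hτ, hC, H⟩ := core E m Q hm
  refine ⟨τ, (C + 1) * (7 / 5) ^ (m + 2), hτ, ?_, ?_⟩
  · have : (1:ℝ) ≤ (7 / 5) ^ (m + 2) := one_le_pow₀ (by norm_num)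
    nlinarith
  intro T ν P v K Bad δ σ β M C₅ r R hD hB hv hpts hC₅ t ht htR hS
  obtain ⟨h, hI⟩ := hD.int
  have hfin := hI.cyl.fin
  have hr := hD.r_pos
  have hRr := hB.R_le
  have hrR := hB.le_R
  have htr : t ≤ r := by linarith
  set I2 := ∫ y in cylSet T 0 (7 / 5 * t), ‖v y‖ ^ 2 ∂ν with hI2
  have hI20 : 0 ≤ I2 := integral_nonneg fun _ => sq_nonneg _
  have htm : 0 < t ^ m := by positivity
  have hβ' : ν.real (T.starProjection ⁻¹' Bad ∩ cylSet T 0 t) ≤ β * r ^ m :=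
    (measureReal_mono inter_subset_left).trans hB.small
  have hβ0 : 0 ≤ β * r ^ m := measureReal_nonneg.trans hβ'
  have hδ := hD.δ_nn t ht htr
  have h1 := H T (2 * r) h ν P v K Bad t σ (β * r ^ m) (δ t * t ^ m) (C₅ * (t ^ m)⁻¹ * I2) hI
    hD.exc ht (by linarith) hv hD.cpt (fun z hz hzt => hD.ratio z hz (by linarith)) hB.meas
    (fun x hx hxt hxB s hs hs2 => hB.good x hx hxB s hs (by linarith))
    (fun z hz hzt hzB => hpts z hz (by linarith) hzB) hS (by positivity) hβ' (hD.dens t ht htr)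
    (by positivity)
  have e1 : β * r ^ m / t ^ m = β * (r / t) ^ m := by rw [div_pow]; ring
  rw [← e1]
  have e2 : (7 / 5 * t) ^ (m + 2) = (7 / 5) ^ (m + 2) * t ^ (m + 2) := mul_pow _ _ _
  unfold hV
  rw [← hI2, e2]
  have ht2 : 0 < t ^ (m + 2) := by positivity
  have h75 : (0:ℝ) < (7 / 5) ^ (m + 2) := by positivity
  set q := (7 / 5 : ℝ) ^ (m + 2) with hq
  calc (t ^ (m + 2))⁻¹ * ∫ y in cylSet T 0 t, ‖v y‖ ^ 2 ∂ν
      ≤ (t ^ (m + 2))⁻¹ * (M * t ^ m * σ ^ 2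
        + (β * r ^ m + C * (δ t * t ^ m)) * (C₅ * (t ^ m)⁻¹ * I2)) := by
        have h2 := hD.mass t ht htr
        gcongr
        refine h1.trans ?_
        gcongr
    _ = (C * δ t + β * r ^ m / t ^ m) * (q * C₅ * ((q * t ^ (m + 2))⁻¹ * I2))
        + M * (σ / t) ^ 2 := by
        rw [div_pow, show t ^ (m + 2) = t ^ m * t ^ 2 by ring]
        field_simp
        ring
    _ ≤ ((C + 1) * (δ t + β * r ^ m / t ^ m)) * (q * C₅ * ((q * t ^ (m + 2))⁻¹ * I2))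
        + M * (σ / t) ^ 2 := by
        have h3 : C * δ t + β * r ^ m / t ^ m ≤ (C + 1) * (δ t + β * r ^ m / t ^ m) := by
          have h4 : 0 ≤ β * r ^ m / t ^ m := by positivity
          nlinarith
        gcongr
    _ = _ := by ring

section
variable {E : Type*} [NormedAddCommGroup E] [InnerProductSpace ℝ E] [FiniteDimensional ℝ E]
  [MeasurableSpace E] [BorelSpace E]
variable {m n Q : ℕ} {T : Submodule ℝ E} {ν : Measure E} {P : E → E →L[ℝ] E} {K Bad : Set E}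
  {δ : ℝ → ℝ} {M τ τ' r R ε c₀ c₁ h θ : ℝ} {u u' u₁ : Fin n → REF.E m → ℝ} {F : Frame m n T}

lemma Dat.mono (hD : Dat m Q T ν P K δ M τ r) (hτ : τ ≤ τ') : Dat m Q T ν P K δ M τ' r := by
  obtain ⟨h, hI⟩ := hD.int
  have hr := hD.r_pos
  refine ⟨hr, ⟨h, hI.cyl, hI.mem, hI.pos, hI.int, hI.mass.trans (by gcongr)⟩,
    hD.exc.trans (by gcongr), hD.cpt, hD.ratio, hD.mass, hD.δ_nn, hD.dens⟩

lemma stepOut_mono (hO : STR.StepOut m n Q T F u u' c₀ c₁ τ r h θ ν P) (hτ : τ ≤ τ') :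
    STR.StepOut m n Q T F u u' c₀ c₁ τ' r h θ ν P := by
  obtain ⟨Bad, hBm, hBs, hBg, hBp⟩ := hO.points
  exact ⟨hO.smooth, hO.outside, hO.size, hO.exact, hO.weak, Bad, hBm, hBs,
    fun x hx hxB s hs hxs => (hBg x hx hxB s hs hxs).trans (by gcongr), hBp⟩

/-- L5 with the ratio `7/5` -/
lemma sup_of_refe' {C₅ : ℝ} (hsup : ∀ (T : Submodule ℝ E) (F : Frame m n T)
    (u : Fin n → REF.E m → ℝ) (Q : ℕ) (r θ h δ : ℝ) (ν : Measure E) (P : E → E →L[ℝ] E),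
    Refe ε r u → r ≤ 3 / 16 → 0 < θ → θ < r → Skel.IntCyl m Q T 0 r h δ ν P →
      ∀ y ∈ ν.support, ‖T.starProjection y‖ ≤ r - θ →
        ‖KMS.rel T (F.lift u) y‖ ^ 2 ≤ C₅ * θ⁻¹ ^ m * hE T (F.lift u) ν r)
    {h δ' R₂ : ℝ} (hI : Skel.IntCyl m Q T 0 R₂ h δ' ν P) (hR₂ : R ≤ R₂) (hR : R ≤ 3 / 16)
    (F : Frame m n T) (hu : Refe ε R u) (t : ℝ) (ht : 0 < t) (htR : 7 / 5 * t ≤ R) (y : E)
    (hy : y ∈ ν.support) (hyt : ‖T.starProjection y‖ < t) :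
    ‖KMS.rel T (F.lift u) y‖ ^ 2 ≤ (C₅ * (5 / 2) ^ m) * (t ^ m)⁻¹
      * ∫ y in cylSet T 0 (7 / 5 * t), ‖KMS.rel T (F.lift u) y‖ ^ 2 ∂ν := by
  obtain ⟨δ'', hI'⟩ := intCyl_shrink (r := 7 / 5 * t) hI (by positivity) (by linarith)
  have h1 := hsup T F u Q (7 / 5 * t) (2 / 5 * t) h δ'' ν P (refe_mono hu le_rfl htR)
    (by linarith) (by positivity) (by linarith) hI' y hy (by linarith)
  have e1 : (2 / 5 * t)⁻¹ ^ m = (5 / 2) ^ m * (t ^ m)⁻¹ := by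
    rw [show (2 / 5 * t)⁻¹ = 5 / 2 * t⁻¹ by rw [mul_inv]; norm_num, mul_pow, inv_pow]
  rw [e1] at h1
  refine h1.trans (le_of_eq ?_)
  unfold hE
  ring

end

/-- **One step of the windows sequence**, with the additional decay inequality of ratio `7/5`
(last item) -/
theorem one_step' (E : Type*) [NormedAddCommGroup E] [InnerProductSpace ℝ E]
    [FiniteDimensional ℝ E] [MeasurableSpace E] [BorelSpace E] (m n Q : ℕ) (hm : 1 ≤ m)
    (hQ : 1 ≤ Q) {D : ℕ} {c₀ c₁ c c' c₅ : ℝ} (hX : Expo m D c₀ c c' c₅ (2 * (c₁ / c₀)))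
    {M : ℝ} (hM : 0 ≤ M) :
    ∃ τ₀ δ₁ ε C : ℝ, 0 < τ₀ ∧ 0 < δ₁ ∧ 0 < ε ∧ 1 ≤ C ∧
    ∀ (T : Submodule ℝ E) (F : Frame m n T) (u u' u₁ : Fin n → REF.E m → ℝ) (ν : Measure E)
      (P : E → E →L[ℝ] E) (K : Set E) (δ : ℝ → ℝ) (h r R θ : ℝ),
      Dat m Q T ν P K δ M τ₀ r → (∀ t, 0 < t → t ≤ r → δ t ≤ δ₁) →
      (∀ z ∈ K, HighD m Q T ν r z) → (0:E) ∈ ν.support → r ≤ 3 / 16 →
      (∀ a, ContDiff ℝ ∞ (u a)) → (∀ a, u a 0 = 0) →
      h = STR.hN m T (F.lift u) ν r → 0 < h → h ≤ ε →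
      STR.StepOut m n Q T F u u' c₀ c₁ τ₀ r h θ ν P → 0 ≤ θ →
      R ≤ r * (1 - 7 * θ) → r ≤ 2 * R → Refe ε R u' → Refe ε R u₁ →
      (∀ a x, ‖x‖ < R → u₁ a x = u' a x - u' a 0) →
      -- (W4)
      ‖F.lift u' 0‖ ≤ r * h ^ (1 / 2 + c') ∧ (∀ a, |u' a 0| ≤ r * h ^ (1 / 2 + c')) ∧
      -- (W5)
      (∀ t, r * h ^ c₅ ≤ t → 2 * t ≤ R →
        STR.hN m T (F.lift u₁) ν t ≤ C * (δ t + h ^ (c₀ / 2)) * STR.hN m T (F.lift u₁) ν (2 * t)
          + C * (r / t) ^ 2 * h ^ (1 + 2 * c')) ∧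
      (∀ t, r * h ^ c₅ ≤ t → 2 * t ≤ R →
        STR.hN m T (F.lift u₁) ν t ≤ (1 / 2 ^ D) * STR.hN m T (F.lift u₁) ν (2 * t)
          + C * (r / t) ^ 2 * h ^ (1 + 2 * c')) ∧
      -- top bound
      (∀ t, R / 2 < t → t ≤ R →
        STR.hN m T (F.lift u₁) ν t ≤ C * h ^ (1 - 2 * (c₁ / c₀))) ∧
      -- next scale
      STR.hN m T (F.lift u₁) ν (r * h ^ c₅) ≤ h ^ (1 + c) ∧
      (∃ r₁, r * h ^ c₅ ≤ r₁ ∧ r₁ ≤ R ∧ STR.hN m T (F.lift u₁) ν r₁ ≤ h ^ (1 + c) ∧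
        ∀ t, r₁ < t → t ≤ R → h ^ (1 + c) < STR.hN m T (F.lift u₁) ν t) ∧
      -- (W5) with ratio `7/5`
      ∀ t, r * h ^ c₅ ≤ 2 * t → 7 / 5 * t ≤ R →
        STR.hN m T (F.lift u₁) ν t
          ≤ C * (δ t + h ^ (c₀ / 2)) * STR.hN m T (F.lift u₁) ν (7 / 5 * t)
          + C * (r / t) ^ 2 * h ^ (1 + 2 * c') := by
  obtain ⟨τ₁, δ₁, ε₁, C₁, hτ₁, hδ₁, hε₁, hC₁, H₁⟩ := one_step E m n Q hm hQ hX hM
  obtain ⟨τ₂, C₂, hτ₂, hC₂, H₂⟩ := decay_lam E m Q hm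
  obtain ⟨ε₅, C₅, hε₅, hC₅, hsup⟩ := HSW.supStmt E m n
  have hc₀ : 0 < c₀ := hX.c'_pos.trans hX.c'_lt
  set C₃ : ℝ := C₂ * (C₅ * (5 / 2) ^ m) * 2 ^ m + 4 * M with hC₃
  have hC₃0 : 0 ≤ C₃ := by positivity
  refine ⟨min τ₁ τ₂, δ₁, min 1 (min ε₁ ε₅), C₁ + C₃, by positivity, hδ₁, by positivity,
    by linarith, ?_⟩
  intro T F u u' u₁ ν P K δ h r R θ hD hδ hK h0 hr3 hu hu0 hh hh0 hhε hO hθ hRr hrR hu' hu₁ htr
  have hh1 : h ≤ 1 := hhε.trans (min_le_left _ _)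
  have hεε₁ : min 1 (min ε₁ ε₅) ≤ ε₁ := (min_le_right _ _).trans (min_le_left _ _)
  have hεε₅ : min 1 (min ε₁ ε₅) ≤ ε₅ := (min_le_right _ _).trans (min_le_right _ _)
  obtain ⟨b1, b2, b3, b4, b5, b6, b7⟩ := H₁ T F u u' u₁ ν P K δ h r R θ
    (hD.mono (min_le_left _ _)) hδ hK h0 hr3 hu hu0 hh hh0 (hhε.trans hεε₁)
    (stepOut_mono hO (min_le_left _ _)) hθ hRr hrR (refe_mono hu' hεε₁ le_rfl)
    (refe_mono hu₁ hεε₁ le_rfl) htr
  have hD₂ := hD.mono (min_le_right τ₁ τ₂)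
  have hO₂ := stepOut_mono hO (min_le_right τ₁ τ₂)
  obtain ⟨h', hI⟩ := hD.int
  have hfin := hI.cyl.fin
  have hr := hD.r_pos
  have hRr' : R ≤ r := by nlinarith
  have hR0 : 0 < R := by linarith
  obtain ⟨Bad, hBm, hBs, hBg, hBp⟩ := hO₂.points
  have hcu' : Continuous (KMS.rel T (F.lift u')) :=
    (KMS.ref_lift (F := F) hO.smooth).contDiff_rel.continuous
  have hcu₁ : Continuous (KMS.rel T (F.lift u₁)) :=
    (KMS.ref_lift (F := F) hu₁.smooth).contDiff_rel.continuous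
  have hcg := cg_pos m
  have hsuppK : ∀ z ∈ K, ‖T.starProjection z‖ < R → z ∈ ν.support := by
    intro z hz hzR
    refine mem_support_of_ratio (m := m) (s₀ := r - ‖T.starProjection z‖) (by linarith)
      fun s hs hs2 => ?_
    have h1 := hK z hz s hs (by linarith)
    have h2 : (0:ℝ) < Q * cg m := by
      have : (1:ℝ) ≤ Q := by exact_mod_cast hQ
      positivity
    linarith
  have hBadS : BadS m T ν P Bad (h ^ c₀) τ₂ r R := by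
    refine ⟨hRr', hrR, hBm, ?_, fun x hx hxB s hs hxs => hBg x hx hxB s hs (by linarith)⟩
    refine ENNReal.toReal_le_of_le_ofReal (by positivity) ?_
    exact le_add_self.trans hBs
  have hpts : ∀ z ∈ K, ‖T.starProjection z‖ < R → T.starProjection z ∉ Bad →
      ‖KMS.rel T (F.lift u₁) z‖ ≤ 2 * r * h ^ (1 / 2 + c') := by
    intro z hz hzR hzB
    rw [lift_transl F htr hzR, rel_zero]
    have c1 := hBp z (hsuppK z hz hzR) (by linarith) hzB (hK z hz)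
    have c2 : h ^ (1 / 2 + c₀) ≤ h ^ (1 / 2 + c') :=
      Real.rpow_le_rpow_of_exponent_ge hh0 hh1 (by linarith [hX.c'_lt])
    calc ‖KMS.rel T (F.lift u') z - -F.lift u' 0‖
        ≤ ‖KMS.rel T (F.lift u') z‖ + ‖F.lift u' 0‖ := by
          rw [sub_neg_eq_add]; exact norm_add_le _ _
      _ ≤ r * h ^ (1 / 2 + c₀) + r * h ^ (1 / 2 + c') := add_le_add c1 b1
      _ ≤ r * h ^ (1 / 2 + c') + r * h ^ (1 / 2 + c') := by gcongr
      _ = _ := by ring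
  refine ⟨b1, b2, fun t hat htR => ?_, fun t hat htR => ?_, fun t ht htR => ?_, b6, b7,
    fun t hat htR => ?_⟩
  · have ht0 : 0 < t := lt_of_lt_of_le (by positivity) hat
    have c2 : 0 ≤ hV m T (KMS.rel T (F.lift u₁)) ν (2 * t) := hV_nonneg (by positivity)
    have c3 : 0 ≤ δ t := hD.δ_nn t ht0 (by linarith)
    refine (b3 t hat htR).trans ?_
    rw [← hV_eq_hN (F.lift u₁) (2 * t)]
    have : C₁ ≤ C₁ + C₃ := by linarith
    gcongr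
  · have ht0 : 0 < t := lt_of_lt_of_le (by positivity) hat
    refine (b4 t hat htR).trans ?_
    have : C₁ ≤ C₁ + C₃ := by linarith
    gcongr
  · refine (b5 t ht htR).trans ?_
    have hp : 0 ≤ h ^ (1 - 2 * (c₁ / c₀)) := by positivity
    have : C₁ ≤ C₁ + C₃ := by linarith
    gcongr
  · have hhc : 0 < h ^ c₅ := by positivity
    have ht0 : 0 < t := by
      have : 0 < r * h ^ c₅ := by positivity
      linarith
    have c1 := H₂ T ν P (KMS.rel T (F.lift u₁)) K Bad δ (2 * r * h ^ (1 / 2 + c')) (h ^ c₀) M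
      (C₅ * (5 / 2) ^ m) r R hD₂ hBadS hcu₁ hpts (by positivity) t ht0 htR
      (fun y hy hyt => sup_of_refe' hsup hI (by linarith) (by linarith) F
        (refe_mono hu₁ hεε₅ le_rfl) t ht0 htR y hy hyt)
    have c2 : 0 ≤ hV m T (KMS.rel T (F.lift u₁)) ν (7 / 5 * t) := hV_nonneg (by positivity)
    have c3 : 0 ≤ δ t := hD.δ_nn t ht0 (by linarith)
    have c4 : h ^ c₀ * (r / t) ^ m ≤ 2 ^ m * h ^ (c₀ / 2) := by
      have d1 := coef_bad (m := m) (c₀ := c₀) (c₅ := c₅) (t := 2 * t) hr hh0 hh1 hX.m_c₅ hat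
      have d2 : (r / t) ^ m = 2 ^ m * (r / (2 * t)) ^ m := by
        rw [← mul_pow]; congr 1; field_simp
      calc h ^ c₀ * (r / t) ^ m = 2 ^ m * (h ^ c₀ * (r / (2 * t)) ^ m) := by rw [d2]; ring
        _ ≤ 2 ^ m * h ^ (c₀ / 2) := by gcongr
    have e1 : M * (2 * r * h ^ (1 / 2 + c') / t) ^ 2 = 4 * M * (r / t) ^ 2 * h ^ (1 + 2 * c') := by
      rw [show 2 * r * h ^ (1 / 2 + c') / t = 2 * (r / t) * h ^ (1 / 2 + c') by ring, mul_pow,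
        rpow_sq hh0, mul_pow, show 2 * (1 / 2 + c') = 1 + 2 * c' by ring]
      ring
    rw [e1] at c1
    refine c1.trans ?_
    rw [← hV_eq_hN (F.lift u₁) (7 / 5 * t)]
    have f1 : C₂ * (C₅ * (5 / 2) ^ m) * (δ t + h ^ c₀ * (r / t) ^ m)
        ≤ (C₁ + C₃) * (δ t + h ^ (c₀ / 2)) := by
      have g1 : (1:ℝ) ≤ 2 ^ m := one_le_pow₀ (by norm_num)
      have g2 : δ t + h ^ c₀ * (r / t) ^ m ≤ 2 ^ m * (δ t + h ^ (c₀ / 2)) := by
        nlinarith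
      have g3 : 0 ≤ δ t + h ^ (c₀ / 2) := by positivity
      calc C₂ * (C₅ * (5 / 2) ^ m) * (δ t + h ^ c₀ * (r / t) ^ m)
          ≤ C₂ * (C₅ * (5 / 2) ^ m) * (2 ^ m * (δ t + h ^ (c₀ / 2))) := by gcongr
        _ = (C₂ * (C₅ * (5 / 2) ^ m) * 2 ^ m) * (δ t + h ^ (c₀ / 2)) := by ring
        _ ≤ (C₁ + C₃) * (δ t + h ^ (c₀ / 2)) := by
            have : C₂ * (C₅ * (5 / 2) ^ m) * 2 ^ m ≤ C₁ + C₃ := by
              rw [hC₃]; linarith
            gcongr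
    have f2 : 4 * M ≤ C₁ + C₃ := by
      have : 0 ≤ C₂ * (C₅ * (5 / 2) ^ m) * 2 ^ m := by positivity
      rw [hC₃]; linarith
    gcongr

end Vale.Agent.P214.W5
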