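import Vale.Agent.P214.W5.Adapt
import Vale.Agent.P214.W5.Pt
import Vale.Agent.P214.HSW.SupW

set_option linter.all false

/-! Block WINDOWS (W5), (W4), next scale: the one-step results on top of `STR.StepOut`. -/

open Set Filter Topology MeasureTheory Metric
open scoped RealInnerProductSpace ENNReal NNReal ContDiff

namespace Vale.Agent.P214.W5

open Vale.Agent.P214 Vale.Agent.P214.FV
open Vale.Agent.P214.Skel (cylSet om)
open Vale.Agent.P214.WIN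

section
variable {E : Type*} [NormedAddCommGroup E] [InnerProductSpace ℝ E] [FiniteDimensional ℝ E]
  [MeasurableSpace E] [BorelSpace E]
variable {m n Q : ℕ} {T : Submodule ℝ E} {ν : Measure E} {P : E → E →L[ℝ] E} {K Bad : Set E}
  {δ : ℝ → ℝ} {M τ r R ε ε' c₀ c₁ h θ : ℝ} {u u' u₁ : Fin n → REF.E m → ℝ} {F : Frame m n T}

/-- size of the increment without derivatives -/
lemma size_zero (hO : STR.StepOut m n Q T F u u' c₀ c₁ τ r h θ ν P) (a : Fin n) (x : REF.E m) :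
    |u' a x - u a x| ≤ r * h ^ (1 / 2 - c₁ / c₀) := by
  have h1 := hO.size a 0 (Nat.zero_le _) x
  rwa [pow_zero, mul_one, norm_iteratedFDeriv_zero, Real.norm_eq_abs] at h1

/-- top bound for the new references -/
lemma top_bound (hD : Dat m Q T ν P K δ M τ r) (hM : 0 ≤ M)
    (hO : STR.StepOut m n Q T F u u' c₀ c₁ τ r h θ ν P) (hu : ∀ a, ContDiff ℝ ∞ (u a))
    (hh : h = STR.hN m T (F.lift u) ν r) (hh0 : 0 < h) (hh1 : h ≤ 1) (hc : 0 ≤ c₁ / c₀)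
    (hRr : R ≤ r) (hrR : r ≤ 2 * R) (t : ℝ) (ht : R / 2 < t) (htR : t ≤ R) :
    hV m T (KMS.rel T (F.lift u')) ν t
      ≤ (2 * 4 ^ (m + 2) + 32 * n ^ 2 * M) * h ^ (1 - 2 * (c₁ / c₀)) := by
  obtain ⟨h', hI⟩ := hD.int
  have hr := hD.r_pos
  have ht0 : 0 < t := by linarith
  have htr : t ≤ r := by linarith
  have hcu : Continuous (KMS.rel T (F.lift u)) := (KMS.ref_lift (F := F) hu).contDiff_rel.continuous
  have hcu' : Continuous (KMS.rel T (F.lift u')) :=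
    (KMS.ref_lift (F := F) hO.smooth).contDiff_rel.continuous
  have h1 := hV_change hI.cyl (ball_subset_ball (by linarith : t ≤ 2 * r)) hcu hcu' ht0
    (d := n * (r * h ^ (1 / 2 - c₁ / c₀))) (fun y _ => by
      have h2 : ‖F.lift u' y - F.lift u y‖ ≤ n * (r * h ^ (1 / 2 - c₁ / c₀)) :=
        WIN.norm_lift_sub_le F fun a => size_zero hO a _
      have h3 : KMS.rel T (F.lift u') y - KMS.rel T (F.lift u) y
          = -(F.lift u' y - F.lift u y) := by unfold KMS.rel; abel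
      rw [h3, norm_neg]; exact h2) (hD.mass t ht0 htr)
  have h2 := hV_le_of_le (r := r) (t := t) hI.cyl (ball_subset_ball (by linarith : r ≤ 2 * r))
    hcu ht0 htr (by linarith)
  rw [hV_eq_hN (F.lift u) r, ← hh] at h2
  refine h1.trans ?_
  have hpow : h ≤ h ^ (1 - 2 * (c₁ / c₀)) := by
    calc h = h ^ (1:ℝ) := (Real.rpow_one h).symm
      _ ≤ _ := Real.rpow_le_rpow_of_exponent_ge hh0 hh1 (by linarith)
  have e1 : (n * (r * h ^ (1 / 2 - c₁ / c₀)) / t) ^ 2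
      = n ^ 2 * (r / t) ^ 2 * h ^ (1 - 2 * (c₁ / c₀)) := by
    rw [div_pow, mul_pow, mul_pow, rpow_sq hh0, div_pow]
    rw [show 2 * (1 / 2 - c₁ / c₀) = 1 - 2 * (c₁ / c₀) by ring]
    ring
  have h3 : (r / t) ^ 2 ≤ 16 := by
    have : r / t ≤ 4 := by rw [div_le_iff₀ ht0]; linarith
    have h0 : 0 ≤ r / t := by positivity
    nlinarith
  rw [e1]
  have hp : 0 ≤ h ^ (1 - 2 * (c₁ / c₀)) := by positivity
  calc 2 * hV m T (KMS.rel T (F.lift u)) ν t + 2 * M * (n ^ 2 * (r / t) ^ 2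
        * h ^ (1 - 2 * (c₁ / c₀)))
      ≤ 2 * (4 ^ (m + 2) * h ^ (1 - 2 * (c₁ / c₀))) + 2 * M * (n ^ 2 * 16
        * h ^ (1 - 2 * (c₁ / c₀))) := by
        gcongr
        exact h2.trans (by gcongr)
    _ = _ := by ring

/-- the value at the origin, trivial bound -/
lemma lift_zero_le (hO : STR.StepOut m n Q T F u u' c₀ c₁ τ r h θ ν P) (hu0 : ∀ a, u a 0 = 0) :
    ‖F.lift u' 0‖ ≤ n * (r * h ^ (1 / 2 - c₁ / c₀)) := by
  have h1 : F.lift u 0 = 0 := by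
    unfold Frame.lift
    refine Finset.sum_eq_zero fun a _ => ?_
    rw [xc_zero', hu0, zero_smul]
  have h2 : ‖F.lift u' 0 - F.lift u 0‖ ≤ n * (r * h ^ (1 / 2 - c₁ / c₀)) :=
    WIN.norm_lift_sub_le F fun a => size_zero hO a _
  rwa [h1, sub_zero] at h2

/-- the components are bounded by the norm -/
lemma abs_le_lift (F : Frame m n T) (u : Fin n → REF.E m → ℝ) (a : Fin n) (y : E) :
    |u a (F.xc y)| ≤ ‖F.lift u y‖ := by
  have h1 : ⟪((F.bN a : Tᗮ) : E), F.lift u y⟫ = u a (F.xc y) := KMS.inner_bN_lift (F := F) (u := u) y a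
  rw [← h1]
  calc |⟪((F.bN a : Tᗮ) : E), F.lift u y⟫| ≤ ‖((F.bN a : Tᗮ) : E)‖ * ‖F.lift u y‖ :=
        abs_real_inner_le_norm _ _
    _ = ‖F.lift u y‖ := by rw [KMS.norm_bN, one_mul]

end

/-- **One step of the windows sequence**, (W4), (W3), (W5) and the next radius, from `StepOut`. -/
theorem one_step (E : Type*) [NormedAddCommGroup E] [InnerProductSpace ℝ E]
    [FiniteDimensional ℝ E] [MeasurableSpace E] [BorelSpace E] (m n Q : ℕ) (hm : 1 ≤ m)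
    (hQ : 1 ≤ Q) {D : ℕ} {c₀ c₁ c c' c₅ : ℝ} (hX : Expo m D c₀ c c' c₅ (2 * (c₁ / c₀)))
    {M : ℝ} (hM : 0 ≤ M) :
    ∃ τ₀ δ₁ ε C : ℝ, 0 < τ₀ ∧ 0 < δ₁ ∧ 0 < ε ∧ 1 ≤ C ∧
    ∀ (T : Submodule ℝ E) (F : Frame m n T) (u u' u₁ : Fin n → REF.E m → ℝ) (ν : Measure E)
      (P : E → E →L[ℝ] E) (K : Set E) (δ : ℝ → ℝ) (h r R θ : ℝ),
      Dat m Q T ν P K δ M τ₀ r → (∀ t, 0 < t → t ≤ r → δ t ≤ δ₁) →
      (∀ z ∈ K, HighD m Q T ν r z) → (0:E) ∈ ν.support → r ≤ 3 / 16 →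
      (∀ a, ContDiff ℝ ∞ (u a)) → (∀ a, u a 0 = 0) →
      h = STR.hN m T (F.lift u) ν r → 0 < h → h ≤ ε →
      STR.StepOut m n Q T F u u' c₀ c₁ τ₀ r h θ ν P → 0 ≤ θ →
      R ≤ r * (1 - 7 * θ) → r ≤ 2 * R → Refe ε R u' → Refe ε R u₁ →
      (∀ a x, ‖x‖ < R → u₁ a x = u' a x - u' a 0) →
      -- (W4)
      ‖F.lift u' 0‖ ≤ r * h ^ (1 / 2 + c') ∧ (∀ a, |u' a 0| ≤ r * h ^ (1 / 2 + c')) ∧
      -- (W5)
      (∀ t, r * h ^ c₅ ≤ t → 2 * t ≤ R →
        STR.hN m T (F.lift u₁) ν t ≤ C * (δ t + h ^ (c₀ / 2)) * STR.hN m T (F.lift u₁) ν (2 * t)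
          + C * (r / t) ^ 2 * h ^ (1 + 2 * c')) ∧
      (∀ t, r * h ^ c₅ ≤ t → 2 * t ≤ R →
        STR.hN m T (F.lift u₁) ν t ≤ (1 / 2 ^ D) * STR.hN m T (F.lift u₁) ν (2 * t)
          + C * (r / t) ^ 2 * h ^ (1 + 2 * c')) ∧
      -- top bound
      (∀ t, R / 2 < t → t ≤ R →
        STR.hN m T (F.lift u₁) ν t ≤ C * h ^ (1 - 2 * (c₁ / c₀))) ∧
      -- next scale
      STR.hN m T (F.lift u₁) ν (r * h ^ c₅) ≤ h ^ (1 + c) ∧
      ∃ r₁, r * h ^ c₅ ≤ r₁ ∧ r₁ ≤ R ∧ STR.hN m T (F.lift u₁) ν r₁ ≤ h ^ (1 + c) ∧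
        ∀ t, r₁ < t → t ≤ R → h ^ (1 + c) < STR.hN m T (F.lift u₁) ν t := by
  obtain ⟨ε₅, C₅, hε₅, hC₅, hsup⟩ := HSW.supStmt E m n
  set C₁ : ℝ := 2 * (2 * 4 ^ (m + 2) + 32 * n ^ 2 * M) + 32 * n ^ 2 * M with hC₁
  have hC₁0 : 0 ≤ C₁ := by positivity
  obtain ⟨τ, δ₁, ε₀, C, hτ, hδ₁, hε₀, hC, H⟩ := step_out E m Q hm hX hM hC₅ hC₁0
  refine ⟨τ, δ₁, min 1 (min ε₀ ε₅), C + C₁, hτ, hδ₁, by positivity, by linarith, ?_⟩
  intro T F u u' u₁ ν P K δ h r R θ hD hδ hK h0 hr3 hu hu0 hh hh0 hhε hO hθ hRr hrR hu' hu₁ htr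
  obtain ⟨h', hI⟩ := hD.int
  have hfin := hI.cyl.fin
  have hr := hD.r_pos
  have hh1 : h ≤ 1 := hhε.trans (min_le_left _ _)
  have hhε₀ : h ≤ ε₀ := hhε.trans ((min_le_right _ _).trans (min_le_left _ _))
  have hεε₅ : min 1 (min ε₀ ε₅) ≤ ε₅ := (min_le_right _ _).trans (min_le_right _ _)
  have hRr' : R ≤ r := by nlinarith
  have hR0 : 0 < R := by linarith
  have hcc : 0 ≤ c₁ / c₀ := by have := hX.e_nn; linarith
  have hu'5 := refe_mono hu' hεε₅ le_rfl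
  have hu₁5 := refe_mono hu₁ hεε₅ le_rfl
  have hcu' : Continuous (KMS.rel T (F.lift u')) :=
    (KMS.ref_lift (F := F) hu'.smooth).contDiff_rel.continuous
  have hcu₁ : Continuous (KMS.rel T (F.lift u₁)) :=
    (KMS.ref_lift (F := F) hu₁.smooth).contDiff_rel.continuous
  obtain ⟨Bad, hBm, hBs, hBg, hBp⟩ := hO.points
  have hs' := fun t ht htR y hy hyt =>
    sup_of_refe hsup hI (by linarith) (by linarith) F hu'5 t ht htR y hy hyt
  have hs₁ := fun t ht htR y hy hyt =>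
    sup_of_refe hsup hI (by linarith) (by linarith) F hu₁5 t ht htR y hy hyt
  have hBadS : BadS m T ν P Bad (h ^ c₀) τ r R := by
    refine ⟨hRr', hrR, hBm, ?_, fun x hx hxB s hs hxs => hBg x hx hxB s hs (by linarith)⟩
    refine ENNReal.toReal_le_of_le_ofReal (by positivity) ?_
    exact le_add_self.trans hBs
  have hcg := cg_pos m
  have hsuppK : ∀ z ∈ K, ‖T.starProjection z‖ < R → z ∈ ν.support := by
    intro z hz hzR
    refine mem_support_of_ratio (m := m) (s₀ := r - ‖T.starProjection z‖) (by linarith)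
      fun s hs hs2 => ?_
    have h1 := hK z hz s hs (by linarith)
    have h2 : (0:ℝ) < Q * cg m := by
      have : (1:ℝ) ≤ Q := by exact_mod_cast hQ
      positivity
    linarith
  have hHgt : Hgt m T ν K Bad (KMS.rel T (F.lift u')) C₅ (r * h ^ (1 / 2 + c₀)) R := by
    refine ⟨hcu', hs', fun z hz hzR hzB => ?_⟩
    exact hBp z (hsuppK z hz hzR) (by linarith) hzB (hK z hz)
  have htop' : ∀ t, R / 2 < t → t ≤ R →
      hV m T (KMS.rel T (F.lift u')) ν t ≤ C₁ * h ^ (1 - 2 * (c₁ / c₀)) := by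
    intro t ht htR
    refine (top_bound hD hM hO hu hh hh0 hh1 hcc hRr' hrR t ht htR).trans ?_
    have hp : 0 ≤ h ^ (1 - 2 * (c₁ / c₀)) := by positivity
    have : 2 * 4 ^ (m + 2) + 32 * n ^ 2 * M ≤ C₁ := by
      rw [hC₁]
      have : 0 ≤ 2 * 4 ^ (m + 2) + 32 * (n:ℝ) ^ 2 * M := by positivity
      have : 0 ≤ 32 * (n:ℝ) ^ 2 * M := by positivity
      linarith
    gcongr
  have htop₁ : ∀ t, R / 2 < t → t ≤ R →
      hV m T (KMS.rel T (F.lift u₁)) ν t ≤ C₁ * h ^ (1 - 2 * (c₁ / c₀)) := by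
    intro t ht htR
    have ht0 : 0 < t := by linarith
    have h1 := top_bound hD hM hO hu hh hh0 hh1 hcc hRr' hrR t ht htR
    have h2 := hV_change hI.cyl (ball_subset_ball (by linarith : t ≤ 2 * r)) hcu' hcu₁ ht0
      (d := n * (r * h ^ (1 / 2 - c₁ / c₀))) (fun y hy => by
        rw [lift_transl F htr (by linarith), rel_zero, sub_sub_cancel_left, neg_neg]
        exact lift_zero_le hO hu0) (hD.mass t ht0 (by linarith))
    have e1 : (n * (r * h ^ (1 / 2 - c₁ / c₀)) / t) ^ 2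
        = n ^ 2 * (r / t) ^ 2 * h ^ (1 - 2 * (c₁ / c₀)) := by
      rw [div_pow, mul_pow, mul_pow, rpow_sq hh0, div_pow]
      rw [show 2 * (1 / 2 - c₁ / c₀) = 1 - 2 * (c₁ / c₀) by ring]
      ring
    have h3 : (r / t) ^ 2 ≤ 16 := by
      have : r / t ≤ 4 := by rw [div_le_iff₀ ht0]; linarith
      have h0 : 0 ≤ r / t := by positivity
      nlinarith
    rw [e1] at h2
    have hp : 0 ≤ h ^ (1 - 2 * (c₁ / c₀)) := by positivity
    calc hV m T (KMS.rel T (F.lift u₁)) ν t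
        ≤ 2 * ((2 * 4 ^ (m + 2) + 32 * n ^ 2 * M) * h ^ (1 - 2 * (c₁ / c₀)))
          + 2 * M * (n ^ 2 * 16 * h ^ (1 - 2 * (c₁ / c₀))) := by
          refine h2.trans ?_
          gcongr
      _ = _ := by rw [hC₁]; ring
  obtain ⟨a1, a2, a3, a4, a5, a6⟩ := H T ν P (KMS.rel T (F.lift u')) (KMS.rel T (F.lift u₁)) K Bad
    δ h r R hD hδ hh0 hhε₀ hBadS hHgt (fun y hy => lift_transl F htr hy) ⟨hcu₁, hs₁⟩ h0 htop'
    htop₁
  have hC' : C ≤ C + C₁ := by linarith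
  have b1 : ‖F.lift u' 0‖ ≤ r * h ^ (1 / 2 + c') := by
    rw [rel_zero, norm_neg] at a1; exact a1
  refine ⟨b1, fun a => ?_, fun t hat htR => ?_, fun t hat htR => ?_, fun t ht htR => ?_, a5, a6⟩
  · have := abs_le_lift F u' a (0:E)
    rw [xc_zero'] at this
    exact this.trans b1
  · have ht0 : 0 < t := lt_of_lt_of_le (by positivity) hat
    have c1 := a3 t hat htR
    have c2 : 0 ≤ hV m T (KMS.rel T (F.lift u₁)) ν (2 * t) := hV_nonneg (by positivity)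
    have c3 : 0 ≤ δ t := hD.δ_nn t ht0 (by linarith)
    refine c1.trans ?_
    rw [← hV_eq_hN (F.lift u₁) (2 * t)]
    gcongr
  · have ht0 : 0 < t := lt_of_lt_of_le (by positivity) hat
    have c1 := a4 t hat htR
    refine c1.trans ?_
    rw [← hV_eq_hN (F.lift u₁) (2 * t)]
    gcongr
  · refine (htop₁ t ht htR).trans ?_
    have hp : 0 ≤ h ^ (1 - 2 * (c₁ / c₀)) := by positivity
    have : C₁ ≤ C + C₁ := by linarith
    gcongr

end Vale.Agent.P214.W5
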