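import Vale.Agent.P214.Skel.Defs

set_option linter.all false

/-! Block WINDOWS, (W5): the decay inequality, abstract form, its iteration, and the choice of the
next scale. -/

open Set Filter Topology MeasureTheory Metric
open scoped RealInnerProductSpace ENNReal NNReal

namespace Vale.Agent.P214.W5

variable {E : Type*} [NormedAddCommGroup E] [InnerProductSpace ℝ E] [FiniteDimensional ℝ E]
  [MeasurableSpace E] [BorelSpace E]

/-! ### the splitting of the integral -/

/-- **splitting**: `f` is small on `K` off the bad set, the rest has small measure and `f` is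
bounded there. -/
theorem split_integral {ν : Measure E} [IsFiniteMeasure ν] {C K Bd N : Set E} {f : E → ℝ}
    (hC : MeasurableSet C) (hK : MeasurableSet K) (hBd : MeasurableSet Bd) (hN : MeasurableSet N)
    (hf : IntegrableOn f C ν) (hf0 : ∀ y, 0 ≤ f y) {τ S β γ : ℝ}
    (hτ : ∀ᵐ y ∂ν, y ∈ C → y ∈ K → y ∉ Bd → f y ≤ τ ^ 2)
    (hS : ∀ᵐ y ∂ν, y ∈ C → f y ≤ S) (hS0 : 0 ≤ S)
    (hcov : ∀ᵐ y ∂ν, y ∈ C → y ∈ K ∨ y ∈ Bd ∨ y ∈ N)
    (hβ : ν.real (C ∩ Bd) ≤ β) (hγ : ν.real (C ∩ N) ≤ γ) :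
    ∫ y in C, f y ∂ν ≤ ν.real C * τ ^ 2 + (β + γ) * S := by
  have hint1 : IntegrableOn (fun _ => τ ^ 2) C ν := integrableOn_const (measure_ne_top _ _)
  have h1 : ∀ᵐ y ∂(ν.restrict C), f y ≤ τ ^ 2 + (Bd.indicator (fun _ => S) y
      + N.indicator (fun _ => S) y) := by
    rw [ae_restrict_iff' hC]
    filter_upwards [hτ, hS, hcov] with y h1 h2 h3 hy
    have hB0 : 0 ≤ Bd.indicator (fun _ => S) y := indicator_nonneg (fun _ _ => hS0) _
    have hN0 : 0 ≤ N.indicator (fun _ => S) y := indicator_nonneg (fun _ _ => hS0) _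
    by_cases hyB : y ∈ Bd
    · rw [indicator_of_mem hyB]
      have := h2 hy
      nlinarith [sq_nonneg τ]
    · rcases h3 hy with h4 | h4 | h4
      · have := h1 hy h4 hyB
        linarith
      · exact absurd h4 hyB
      · rw [indicator_of_mem h4]
        have := h2 hy
        nlinarith [sq_nonneg τ]
  have hintB : Integrable (Bd.indicator (fun _ => S)) (ν.restrict C) :=
    (integrable_const S).indicator hBd
  have hintN : Integrable (N.indicator (fun _ => S)) (ν.restrict C) :=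
    (integrable_const S).indicator hN
  have hsum : Integrable (fun y => τ ^ 2 + (Bd.indicator (fun _ => S) y
      + N.indicator (fun _ => S) y)) (ν.restrict C) := hint1.add (hintB.add hintN)
  calc ∫ y in C, f y ∂ν ≤ ∫ y in C, (τ ^ 2 + (Bd.indicator (fun _ => S) y
        + N.indicator (fun _ => S) y)) ∂ν :=
        integral_mono_ae hf hsum h1
    _ = ∫ y in C, τ ^ 2 ∂ν + (∫ y in C, Bd.indicator (fun _ => S) y ∂ν
        + ∫ y in C, N.indicator (fun _ => S) y ∂ν) := by
        have h2 : IntegrableOn (fun y => Bd.indicator (fun _ => S) y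
          + N.indicator (fun _ => S) y) C ν := hintB.add hintN
        rw [integral_add hint1 h2, integral_add hintB hintN]
    _ = ν.real C * τ ^ 2 + (ν.real (C ∩ Bd) * S + ν.real (C ∩ N) * S) := by
        rw [setIntegral_const, integral_indicator hBd, integral_indicator hN,
          Measure.restrict_restrict hBd, Measure.restrict_restrict hN, setIntegral_const,
          setIntegral_const, inter_comm Bd C, inter_comm N C]
        simp only [smul_eq_mul]
    _ ≤ ν.real C * τ ^ 2 + (β * S + γ * S) := by gcongr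
    _ = _ := by ring

/-! ### iteration -/

/-- **iteration of the decay inequality** `h(t) ≤ η h(2t) + B (r/t)²` -/
theorem iterate {h : ℝ → ℝ} {r η B a b : ℝ} (hη0 : 0 ≤ η) (hη : η ≤ 1 / 2) (hB : 0 ≤ B)
    (hdec : ∀ t, a ≤ t → 2 * t ≤ b → h t ≤ η * h (2 * t) + B * (r / t) ^ 2) (ha : 0 < a) (k : ℕ) :
    ∀ t, a ≤ t → 2 ^ k * t ≤ b → h t ≤ η ^ k * h (2 ^ k * t) + 2 * B * (r / t) ^ 2 := by
  induction k with
  | zero =>
    intro t hat _
    have : 0 ≤ 2 * B * (r / t) ^ 2 := by positivity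
    simp only [pow_zero, one_mul]
    linarith
  | succ k ih =>
    intro t hat hbt
    have ht : 0 < t := ha.trans_le hat
    have h2k : (1:ℝ) ≤ 2 ^ k := one_le_pow₀ (by norm_num)
    have h1 : 2 * t ≤ b := by
      rw [pow_succ] at hbt; nlinarith
    have h2 := hdec t hat h1
    have h3 := ih (2 * t) (by linarith) (by rw [pow_succ] at hbt; linarith)
    have h4 : (2:ℝ) ^ k * (2 * t) = 2 ^ (k + 1) * t := by ring
    rw [h4] at h3
    have h5 : (r / (2 * t)) ^ 2 = (r / t) ^ 2 / 4 := by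
      rw [div_pow, div_pow]; field_simp; ring
    rw [h5] at h3
    have h6 : 0 ≤ B * (r / t) ^ 2 := by positivity
    calc h t ≤ η * h (2 * t) + B * (r / t) ^ 2 := h2
      _ ≤ η * (η ^ k * h (2 ^ (k + 1) * t) + 2 * B * ((r / t) ^ 2 / 4)) + B * (r / t) ^ 2 := by
          gcongr
      _ = η ^ (k + 1) * h (2 ^ (k + 1) * t) + (η * (B * (r / t) ^ 2) / 2 + B * (r / t) ^ 2) := by
          ring
      _ ≤ η ^ (k + 1) * h (2 ^ (k + 1) * t) + 2 * B * (r / t) ^ 2 := by nlinarith

/-- iteration up to the top scale, with `η = 2^{-D}`: power decay -/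
theorem power_decay {h : ℝ → ℝ} {r B a b M : ℝ} {D : ℕ} (hD : 1 ≤ D) (hB : 0 ≤ B) (ha : 0 < a)
    (hM : ∀ t, b / 2 < t → t ≤ b → h t ≤ M) (hM0 : 0 ≤ M)
    (hdec : ∀ t, a ≤ t → 2 * t ≤ b → h t ≤ (1 / 2 ^ D) * h (2 * t) + B * (r / t) ^ 2) :
    ∀ t, a ≤ t → t ≤ b → h t ≤ 2 ^ D * (t / b) ^ D * M + 2 * B * (r / t) ^ 2 := by
  intro t hat htb
  have ht : 0 < t := ha.trans_le hat
  have hb : 0 < b := ht.trans_le htb
  -- choose k with b/2 < 2^k t ≤ b
  obtain ⟨k, hk1, hk2⟩ : ∃ k : ℕ, b / 2 < 2 ^ k * t ∧ 2 ^ k * t ≤ b := by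
    obtain ⟨k, hk, hk'⟩ := exists_nat_pow_near (x := b / t) (y := (2:ℝ))
      ((one_le_div ht).2 htb) (by norm_num)
    refine ⟨k, ?_, ?_⟩
    · rw [div_lt_iff₀ ht, pow_succ] at hk'; linarith
    · rwa [le_div_iff₀ ht] at hk
  have h1 := iterate (h := h) (r := r) (η := 1 / 2 ^ D) (by positivity)
    (by
      have h2 : (2:ℝ) ^ 1 ≤ 2 ^ D := pow_le_pow_right₀ (by norm_num) hD
      rw [pow_one] at h2
      exact one_div_le_one_div_of_le (by norm_num) h2) hB hdec ha k t hat hk2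
  have h3 := hM _ hk1 hk2
  have h4 : (1 / 2 ^ D : ℝ) ^ k = (1 / 2 ^ k) ^ D := by
    rw [one_div, one_div, inv_pow, inv_pow, ← pow_mul, ← pow_mul, mul_comm]
  have h5 : (1 / 2 ^ k : ℝ) ≤ 2 * (t / b) := by
    rw [div_le_iff₀ (by positivity)]
    have : b < 2 * (t * 2 ^ k) := by linarith
    calc (1:ℝ) ≤ 2 * (t * 2 ^ k) / b := by rw [le_div_iff₀ hb]; linarith
      _ = 2 * (t / b) * 2 ^ k := by ring
  have key : (1 / 2 ^ D : ℝ) ^ k * h (2 ^ k * t) ≤ 2 ^ D * (t / b) ^ D * M := by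
    calc (1 / 2 ^ D : ℝ) ^ k * h (2 ^ k * t) ≤ (1 / 2 ^ D : ℝ) ^ k * M :=
          mul_le_mul_of_nonneg_left h3 (by positivity)
      _ = (1 / 2 ^ k) ^ D * M := by rw [h4]
      _ ≤ (2 * (t / b)) ^ D * M := by gcongr
      _ = 2 ^ D * (t / b) ^ D * M := by rw [mul_pow]
  linarith

/-! ### the next scale -/

/-- `t ↦ ∫_{C_t} f` is left-continuous; hence the sup of a sublevel set is attained -/
theorem next_scale {g : ℝ → ℝ} {a R t₀ : ℝ} (ht₀ : 0 < t₀) (ht₀R : t₀ ≤ R) (hg : g t₀ ≤ a)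
    (hlc : ∀ t, 0 < t → t ≤ R → Tendsto g (𝓝[<] t) (𝓝 (g t))) :
    ∃ r', t₀ ≤ r' ∧ r' ≤ R ∧ g r' ≤ a ∧ ∀ t, r' < t → t ≤ R → a < g t := by
  set S := {t | t₀ ≤ t ∧ t ≤ R ∧ g t ≤ a} with hS
  have hne : S.Nonempty := ⟨t₀, le_rfl, ht₀R, hg⟩
  have hbd : BddAbove S := ⟨R, fun t ht => ht.2.1⟩
  have h1 : t₀ ≤ sSup S := le_csSup hbd ⟨le_rfl, ht₀R, hg⟩
  have h2 : sSup S ≤ R := csSup_le hne fun t ht => ht.2.1
  refine ⟨sSup S, h1, h2, ?_, ?_⟩
  · by_contra hcon
    rw [not_le] at hcon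
    have h3 := (hlc (sSup S) (ht₀.trans_le h1) h2).eventually (lt_mem_nhds hcon)
    obtain ⟨l, hl, hl2⟩ := mem_nhdsLT_iff_exists_Ioo_subset.1 h3
    have hl' : l < sSup S := hl
    obtain ⟨t, ht, htl⟩ := exists_lt_of_lt_csSup hne hl'
    rcases (le_csSup hbd ht).lt_or_eq with h4 | h4
    · exact absurd ht.2.2 (not_le.2 (hl2 ⟨htl, h4⟩))
    · rw [← h4] at hcon
      exact absurd ht.2.2 (not_le.2 hcon)
  · intro t ht htR
    by_contra hcon
    rw [not_lt] at hcon
    exact absurd (le_csSup hbd ⟨h1.trans ht.le, htR, hcon⟩) (not_le.2 ht)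

/-- left continuity of the integral over open cylinders -/
theorem tendsto_integral_left {ν : Measure E} (T : Submodule ℝ E) (z : E) {f : E → ℝ} {t : ℝ}
    (hf : IntegrableOn f (Skel.cylSet T z t) ν) :
    Tendsto (fun s => ∫ y in Skel.cylSet T z s, f y ∂ν) (𝓝[<] t)
      (𝓝 (∫ y in Skel.cylSet T z t, f y ∂ν)) := by
  have hm : ∀ s, MeasurableSet (Skel.cylSet T z s) := fun s =>
    (isOpen_ball.preimage T.starProjection.continuous).measurableSet
  have h1 : ∀ s, ∫ y in Skel.cylSet T z s, f y ∂ν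
      = ∫ y, (Skel.cylSet T z s).indicator f y ∂ν := fun s => (integral_indicator (hm s)).symm
  simp only [h1]
  refine tendsto_integral_filter_of_dominated_convergence
    (fun y => ‖(Skel.cylSet T z t).indicator f y‖) ?_ ?_ ?_ ?_
  · filter_upwards [self_mem_nhdsWithin] with s hs
    have hsub : Skel.cylSet T z s ⊆ Skel.cylSet T z t := fun y hy =>
      ball_subset_ball (le_of_lt hs) hy
    exact ((hf.mono_set hsub).integrable_indicator (hm s)).aestronglyMeasurable
  · filter_upwards [self_mem_nhdsWithin] with s hs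
    refine Eventually.of_forall fun y => ?_
    have hsub : Skel.cylSet T z s ⊆ Skel.cylSet T z t := fun y hy =>
      ball_subset_ball (le_of_lt hs) hy
    by_cases hy : y ∈ Skel.cylSet T z s
    · rw [indicator_of_mem hy, indicator_of_mem (hsub hy)]
    · rw [indicator_of_notMem hy, norm_zero]; exact norm_nonneg _
  · exact ((hf.integrable_indicator (hm t))).norm
  · refine Eventually.of_forall fun y => ?_
    refine tendsto_const_nhds.congr' ?_
    by_cases hy : y ∈ Skel.cylSet T z t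
    · have hy' : dist (T.starProjection y) z < t := hy
      filter_upwards [Ioo_mem_nhdsLT hy'] with s hs
      have : y ∈ Skel.cylSet T z s := hs.1
      rw [indicator_of_mem hy, indicator_of_mem this]
    · filter_upwards [self_mem_nhdsWithin] with s hs
      have : y ∉ Skel.cylSet T z s := fun h => hy (ball_subset_ball (le_of_lt hs) h)
      rw [indicator_of_notMem hy, indicator_of_notMem this]

end Vale.Agent.P214.W5
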