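import Vale.Agent.P214.MU.Theta
import Vale.Agent.P214.TCH.Mass

/-! The constants: `cg m = cm m * om m`. -/

open Set Filter Topology MeasureTheory Metric
open scoped RealInnerProductSpace ENNReal NNReal

namespace Vale.Agent.P214.W5

open Vale.Agent.P214 Vale.Agent.P214.Skel

lemma cphi_eq (m : ℕ) : MU.cphi m prof = TCH.cm m := by
  unfold MU.cphi TCH.cm
  have h1 : ∫ s in Ioc (0:ℝ) 1, (-deriv prof s) * (√s) ^ m
      = ∫ s in (0:ℝ)..1, (2 * s ^ ((m:ℝ) / 2) - 2 * s ^ ((m:ℝ) / 2 + 1)) := by
    rw [intervalIntegral.integral_of_le zero_le_one]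
    refine setIntegral_congr_fun measurableSet_Ioc fun s hs => ?_
    rw [(hasDerivAt_prof s).deriv, neg_neg]
    unfold dprof
    rw [max_eq_left (by linarith [hs.2])]
    have e1 : (√s) ^ m = s ^ ((m:ℝ) / 2) := by
      rw [Real.sqrt_eq_rpow, ← Real.rpow_natCast, ← Real.rpow_mul hs.1.le]
      congr 1; ring
    rw [e1, Real.rpow_add_one hs.1.ne']
    ring
  rw [h1, intervalIntegral.integral_sub, intervalIntegral.integral_const_mul,
    intervalIntegral.integral_const_mul, integral_rpow, integral_rpow]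
  · have hm : (0:ℝ) ≤ m := Nat.cast_nonneg m
    rw [Real.one_rpow, Real.one_rpow, Real.zero_rpow (by positivity), Real.zero_rpow (by positivity)]
    have e2 : (m:ℝ) / 2 + 1 = (m + 2) / 2 := by ring
    have e3 : (m:ℝ) / 2 + 1 + 1 = (m + 4) / 2 := by ring
    rw [e3, e2]
    field_simp
    ring
  · left; have hm : (0:ℝ) ≤ m := Nat.cast_nonneg m; linarith
  · left; have hm : (0:ℝ) ≤ m := Nat.cast_nonneg m; linarith
  · refine Continuous.intervalIntegrable ?_ _ _
    exact continuous_const.mul (Real.continuous_rpow_const (by positivity))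
  · refine Continuous.intervalIntegrable ?_ _ _
    exact continuous_const.mul (Real.continuous_rpow_const (by positivity))

/-- **the two normalising constants** -/
theorem cg_eq_cm (m : ℕ) : cg m = TCH.cm m * om m := by
  have := MU.cg_eq m
  rw [cphi_eq] at this
  rw [this, mul_comm]
  rfl

lemma om_pos (m : ℕ) : 0 < om m := by
  have h := cg_eq_cm m
  have h1 := cg_pos m
  have h2 := TCH.cm_pos m
  rw [h] at h1
  exact (pos_iff_pos_of_mul_pos h1).1 h2

end Vale.Agent.P214.W5
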