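import Vale.Agent.P214.W5.Good
import Vale.Agent.P214.W5.Abs

set_option linter.all false

/-! Block WINDOWS (W5): the decay inequality at one scale. -/

open Set Filter Topology MeasureTheory Metric
open scoped RealInnerProductSpace ENNReal NNReal

namespace Vale.Agent.P214.W5

open Vale.Agent.P214 Vale.Agent.P214.FV
open Vale.Agent.P214.Skel (cylSet om)

/-- **(W5), core**: `v` is small on `K` off `Bad` and bounded on the support. -/
theorem core (E : Type*) [NormedAddCommGroup E] [InnerProductSpace ℝ E]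
    [FiniteDimensional ℝ E] [MeasurableSpace E] [BorelSpace E] (m Q : ℕ) (hm : 1 ≤ m) :
    ∃ τ C : ℝ, 0 < τ ∧ 0 < C ∧ ∀ (T : Submodule ℝ E) (R h : ℝ) (ν : Measure E)
      (P : E → E →L[ℝ] E) (v : E → E) (K Bad : Set E) (t σ β γ S : ℝ),
      Skel.IntCyl m Q T 0 R h τ ν P → Skel.exc T ν P 0 R ≤ τ * R ^ m → 0 < t → t ≤ R / 2 →
      Continuous v → IsCompact K →
      (∀ z ∈ K, ‖T.starProjection z‖ < t →
        ∃ s₀ > 0, ∀ s, 0 < s → s ≤ s₀ → (Q : ℝ) * cg m ≤ ratio m ν z s) →
      MeasurableSet Bad →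
      (∀ x ∈ T, ‖x‖ < t → x ∉ Bad → Gd m T ν P τ (R / 16) x) →
      (∀ z ∈ K, ‖T.starProjection z‖ < t → T.starProjection z ∉ Bad → ‖v z‖ ≤ σ) →
      (∀ y ∈ ν.support, ‖T.starProjection y‖ < t → ‖v y‖ ^ 2 ≤ S) → 0 ≤ S →
      ν.real (T.starProjection ⁻¹' Bad ∩ cylSet T 0 t) ≤ β →
      μH[m] (((T : Set E) ∩ ball 0 t) \ (T.starProjection '' K)) ≤ ENNReal.ofReal γ → 0 ≤ γ →
      ∫ y in cylSet T 0 t, ‖v y‖ ^ 2 ∂ν ≤ ν.real (cylSet T 0 t) * σ ^ 2 + (β + C * γ) * S := by
  obtain ⟨τ, C, hτ, hC, H⟩ := good_point E m Q hm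
  refine ⟨τ, C * 2 ^ m, hτ, by positivity, ?_⟩
  intro T R h ν P v K Bad t σ β γ S hI hex ht htR hv hK hKr hBad hgd hKv hS hS0 hβ hγ hγ0
  have hCS := hI.cyl
  have hfin := hCS.fin
  have hR := hI.pos
  have hpc : Continuous (T.starProjection : E → E) := T.starProjection.continuous
  have hTm : MeasurableSet (T : Set E) := (Submodule.closed_of_finiteDimensional T).measurableSet
  have hKim : MeasurableSet (T.starProjection '' K) := (hK.image hpc).isClosed.measurableSet
  have hsupp : ∀ᵐ y ∂ν, y ∈ ν.support := Measure.support_mem_ae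
  have hcm := TCH.measurableSet_cylSet T (0:E) t
  set A : Set E := ((T : Set E) ∩ ball 0 t) \ (T.starProjection '' K ∪ Bad) with hA
  have hAm : MeasurableSet A := (hTm.inter measurableSet_ball).diff (hKim.union hBad)
  have hgood : ∀ x ∈ T, ‖x‖ < t → x ∉ Bad → ∀ s, 0 < s → s ≤ R / 16 →
      ν.real (cylSet T x s) ≤ C * s ^ m ∧
      |INT.htot m T (ν.restrict (cylSet T 0 R)) x s / cg m - Q| ≤ 1 / 4 :=
    fun x hx hxt hxB => H T R h ν P hI hex x hx (by linarith) (hgd x hx hxt hxB)
  -- the measure over the rest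
  have h1 : ν.real (cylSet T 0 t ∩ T.starProjection ⁻¹' A) ≤ C * 2 ^ m * γ := by
    have h2 : (ν.map T.starProjection) A ≤ ENNReal.ofReal (C * 2 ^ m) * μH[m] A := by
      refine measure_le_hausdorff hm hAm hC (by positivity : 0 < R / 16) fun x hx s hs hsR => ?_
      rw [Measure.map_apply hpc.measurable measurableSet_ball]
      have hxt : ‖x‖ < t := by have := hx.1.2; rwa [mem_ball_zero_iff] at this
      have h3 := (hgood x hx.1.1 hxt (fun hb => hx.2 (Or.inr hb)) s hs hsR).1
      have h4 : ν (cylSet T x s) ≤ ENNReal.ofReal (C * s ^ m) := by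
        rw [← ENNReal.ofReal_toReal (measure_ne_top ν (cylSet T x s))]
        exact ENNReal.ofReal_le_ofReal h3
      exact h4
    rw [Measure.map_apply hpc.measurable hAm] at h2
    have h5 : μH[m] A ≤ ENNReal.ofReal γ := by
      refine (measure_mono ?_).trans hγ
      intro x hx
      exact ⟨hx.1, fun hk => hx.2 (Or.inl hk)⟩
    rw [measureReal_def]
    refine ENNReal.toReal_le_of_le_ofReal (by positivity) ?_
    calc ν (cylSet T 0 t ∩ T.starProjection ⁻¹' A) ≤ ν (T.starProjection ⁻¹' A) :=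
          measure_mono inter_subset_right
      _ ≤ ENNReal.ofReal (C * 2 ^ m) * μH[m] A := h2
      _ ≤ ENNReal.ofReal (C * 2 ^ m) * ENNReal.ofReal γ := by gcongr
      _ = _ := by rw [← ENNReal.ofReal_mul (by positivity)]
  have hfb : ∀ᵐ y ∂ν, y ∈ cylSet T 0 t → ‖v y‖ ^ 2 ≤ S := by
    filter_upwards [hsupp] with y hy hyC
    have : ‖T.starProjection y‖ < t := by
      have h : T.starProjection y ∈ ball (0:E) t := hyC
      rwa [mem_ball_zero_iff] at h
    exact hS y hy this
  have hf : IntegrableOn (fun y => ‖v y‖ ^ 2) (cylSet T 0 t) ν := by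
    refine Measure.integrableOn_of_bounded (M := S) (measure_ne_top _ _)
      (by fun_prop : Continuous fun y => ‖v y‖ ^ 2).aestronglyMeasurable ?_
    rw [ae_restrict_iff' hcm]
    filter_upwards [hfb] with y hy hyC
    rw [Real.norm_of_nonneg (sq_nonneg _)]
    exact hy hyC
  refine split_integral hcm hK.isClosed.measurableSet (Bd := T.starProjection ⁻¹' Bad)
    (hpc.measurable hBad) (N := T.starProjection ⁻¹' A) (hpc.measurable hAm) hf
    (fun y => sq_nonneg _) (Eventually.of_forall fun y hyC hyK hyB => ?_) hfb hS0 ?_ ?_ h1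
  · have : ‖T.starProjection y‖ < t := by
      have h : T.starProjection y ∈ ball (0:E) t := hyC
      rwa [mem_ball_zero_iff] at h
    have h2 := hKv y hyK this hyB
    gcongr
  · filter_upwards [hsupp] with y hy hyC
    by_cases hyB : T.starProjection y ∈ Bad
    · exact Or.inr (Or.inl hyB)
    have hyt : ‖T.starProjection y‖ < t := by
      have h : T.starProjection y ∈ ball (0:E) t := hyC
      rwa [mem_ball_zero_iff] at h
    by_cases hyK : T.starProjection y ∈ T.starProjection '' K
    · left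
      obtain ⟨z, hz, hzy⟩ := hyK
      have h3 := fibre_unique (x := T.starProjection y) hI (T.starProjection_apply_mem y)
        (by linarith) (fun s hs hsR =>
          (hgood _ (T.starProjection_apply_mem y) hyt hyB s hs hsR).2) hy rfl hzy
        (hKr z hz (by rwa [hzy]))
      rw [h3]; exact hz
    · right; right
      refine ⟨⟨T.starProjection_apply_mem y, hyC⟩, ?_⟩
      rintro (h | h)
      · exact hyK h
      · exact hyB h
  · rw [inter_comm]; exact hβ

end Vale.Agent.P214.W5
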