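import Vale.Agent.P214.W5.Mult
import Vale.Agent.P214.INT.Cone

set_option linter.all false

/-! Block WINDOWS (W5): good base points. -/

open Set Filter Topology MeasureTheory Metric
open scoped RealInnerProductSpace ENNReal NNReal

namespace Vale.Agent.P214.W5

open Vale.Agent.P214 Vale.Agent.P214.FV
open Vale.Agent.P214.Skel (cylSet om)

variable {E : Type*} [NormedAddCommGroup E] [InnerProductSpace ℝ E] [FiniteDimensional ℝ E]
  [MeasurableSpace E] [BorelSpace E]
variable {m Q : ℕ} {T : Submodule ℝ E} {R h δ : ℝ} {ν : Measure E} {P : E → E →L[ℝ] E}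
  {z₀ z x y : E} {r s : ℝ}

/-- `x` is a good base point: small excess at all scales `≤ ρ` -/
def Gd (m : ℕ) (T : Submodule ℝ E) (ν : Measure E) (P : E → E →L[ℝ] E) (τ ρ : ℝ) (x : E) : Prop :=
  ∀ s, 0 < s → s ≤ ρ → Skel.exc T ν P x s ≤ τ * s ^ m

lemma skel_exc_mono (hC : CylStat m T (ball z₀ R) h ν P) {x' : E} {s' : ℝ}
    (hsub : ball x s ⊆ ball x' s') : Skel.exc T ν P x s ≤ Skel.exc T ν P x' s' := by
  unfold Skel.exc
  have : cylSet T x s ⊆ cylSet T x' s' := fun y hy => hsub hy
  exact setIntegral_mono_set (R2F.integrable_tilt hC).integrableOn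
    (ae_restrict_of_ae (R2F.tilt_nonneg_ae hC)) this.eventuallyLE

/-- **good base points**: masses of small cylinders, mass fraction -/
theorem good_point (E : Type*) [NormedAddCommGroup E] [InnerProductSpace ℝ E]
    [FiniteDimensional ℝ E] [MeasurableSpace E] [BorelSpace E] (m Q : ℕ) (hm : 1 ≤ m) :
    ∃ τ C : ℝ, 0 < τ ∧ 0 < C ∧ ∀ (T : Submodule ℝ E) (R h : ℝ) (ν : Measure E)
      (P : E → E →L[ℝ] E), Skel.IntCyl m Q T 0 R h τ ν P → Skel.exc T ν P 0 R ≤ τ * R ^ m →
      ∀ x ∈ T, ‖x‖ ≤ R / 2 → Gd m T ν P τ (R / 16) x → ∀ s, 0 < s → s ≤ R / 16 →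
        ν.real (cylSet T x s) ≤ C * s ^ m ∧
        |INT.htot m T (ν.restrict (cylSet T 0 R)) x s / cg m - Q| ≤ 1 / 4 := by
  obtain ⟨δ, C, hδ, hC, hM⟩ := INTM.thmM (E := E) m Q (by norm_num : (0:ℝ) < 1 / 4)
  have hcg := cg_pos m
  have hcm := TCH.cm_pos m
  have hcm1 := TCH.cm_le m
  set τ : ℝ := min (δ / (2 * 4 ^ m)) (cg m / (3 * (1 + 36 * 8 ^ (m + 1)))) with hτ
  have hτ0 : 0 < τ := lt_min (by positivity) (by positivity)
  have hτ1 : τ ≤ δ / (2 * 4 ^ m) := min_le_left _ _
  have hτ2 : τ ≤ cg m / (3 * (1 + 36 * 8 ^ (m + 1))) := min_le_right _ _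
  refine ⟨τ, C, hτ0, hC, fun T R h ν P hI hex x hx hxR hgd s hs hsR => ?_⟩
  have hR := hI.pos
  have hCS := hI.cyl
  have hfin := hCS.fin
  obtain ⟨S, θ, -, -, -, hIC⟩ := AREA.intCyl_of_skel hI (A := univ) (by simp)
  set ν' := ν.restrict (cylSet T 0 R) with hν'
  have hmeas : MeasurableSet (cylSet T 0 R) := TCH.measurableSet_cylSet T 0 R
  have hball : ∀ t, t ≤ R / 2 → ball x t ⊆ ball (0:E) R := by
    intro t ht
    refine ball_subset_ball' ?_
    rw [dist_zero_right]; linarith
  have hexc : ∀ t, 0 < t → t ≤ R / 2 → INT.exc m T ν' P x t * t ^ m ≤ 2 * Skel.exc T ν P x t :=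
    fun t ht ht2 => int_exc_le hCS hx ht hmeas fun y hy => hball t ht2 hy
  -- the datum
  have hD : INTM.Dat m Q δ T (ball 0 R) h ν' P S θ (fun y => AREA.jac (proj T) (P y)) x
      (R / 16) := by
    refine ⟨hIC, by positivity, ?_, ?_, ?_⟩
    · rw [star_eq hx]; exact hball _ (by linarith)
    · have h1 := near_of_skel hI hm hx (s := 2 * (R / 16)) (by positivity) (by
        rw [sub_zero]; linarith)
      have h2 : (36:ℝ) * R / (2 * (R / 16)) ^ (m + 1) * Skel.exc T ν P 0 R
          ≤ 36 * 8 ^ (m + 1) * τ := by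
        have e1 : (36:ℝ) * R / (2 * (R / 16)) ^ (m + 1) = 36 * 8 ^ (m + 1) / R ^ m := by
          rw [show 2 * (R / 16) = R / 8 by ring, div_pow, pow_succ R m]
          field_simp
        rw [e1]
        calc 36 * 8 ^ (m + 1) / R ^ m * Skel.exc T ν P 0 R
            ≤ 36 * 8 ^ (m + 1) / R ^ m * (τ * R ^ m) := by gcongr
          _ = _ := by field_simp
      have h3 : (1 + 36 * 8 ^ (m + 1)) * τ ≤ cg m / 3 := by
        calc (1 + 36 * 8 ^ (m + 1)) * τ ≤ (1 + 36 * 8 ^ (m + 1))
              * (cg m / (3 * (1 + 36 * 8 ^ (m + 1)))) := by gcongr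
          _ = _ := by field_simp
      have h4 : TCH.cm m * τ ≤ τ := by nlinarith
      have e2 : INT.htot m T ν' x (2 * (R / 16)) / cg m - Q
          = (INT.htot m T ν' x (2 * (R / 16)) - cg m * Q) / cg m := by field_simp
      rw [e2, abs_div, abs_of_pos hcg, div_le_iff₀ hcg]
      refine h1.trans ?_
      nlinarith
    · have h1 := hexc (4 * (R / 16)) (by positivity) (by linarith)
      have h2 : Skel.exc T ν P x (4 * (R / 16)) ≤ Skel.exc T ν P 0 R :=
        skel_exc_mono hCS (hball _ (by linarith))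
      have h3 : INT.exc m T ν' P x (4 * (R / 16)) * (4 * (R / 16)) ^ m ≤ 2 * (τ * R ^ m) := by
        linarith
      have h4 : (0:ℝ) < (4 * (R / 16)) ^ m := by positivity
      refine le_of_mul_le_mul_right (h3.trans ?_) h4
      calc 2 * (τ * R ^ m) ≤ 2 * (δ / (2 * 4 ^ m) * R ^ m) := by gcongr
        _ = δ * (4 * (R / 16)) ^ m := by
            rw [show 4 * (R / 16) = R / 4 by ring, div_pow]; field_simp
  have hMu := (hM T (ball 0 R) h ν' P S θ _ x (R / 16) hD).1
  have hsm : 0 < s ^ m := by positivity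
  have h5 := hMu.2 x (by rw [star_eq hx]; exact mem_ball_self (by positivity)) s hs hsR (by
    intro s' h1 h2
    have h3 := hexc s' (by linarith) (by linarith)
    have h4 := hgd s' (by linarith) h2
    have h5 : (0:ℝ) < s' ^ m := by
      have : 0 < s' := by linarith
      positivity
    refine le_of_mul_le_mul_right (?_ : _ ≤ δ * s' ^ m) h5
    calc INT.exc m T ν' P x s' * s' ^ m ≤ 2 * (τ * s' ^ m) := by linarith
      _ ≤ 2 * (δ / (2 * 4 ^ m) * s' ^ m) := by gcongr
      _ = δ * s' ^ m / 4 ^ m := by field_simp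
      _ ≤ δ * s' ^ m := div_le_self (by positivity) (one_le_pow₀ (by norm_num)))
  refine ⟨?_, ?_⟩
  · have h6 := h5.2 s (by linarith) (by linarith)
    rw [cyl_eq hx] at h6
    have h7 : cylSet T x s ⊆ cylSet T 0 R := fun y hy => hball s (by linarith) hy
    rwa [hν', measureReal_restrict_apply (TCH.measurableSet_cylSet T x s), inter_eq_left.2 h7]
      at h6
  · exact h5.1 s (by linarith) hsR

lemma prof_anti' {a b : ℝ} (h : a ≤ b) : prof b ≤ prof a := by
  unfold prof
  have : max (1 - b) 0 ≤ max (1 - a) 0 := max_le_max_right _ (by linarith)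
  gcongr

/-- **uniqueness in the fibre** -/
theorem fibre_unique (hI : Skel.IntCyl m Q T 0 R h δ ν P) (hx : x ∈ T) (hxR : ‖x‖ ≤ R / 2)
    (hgd : ∀ s, 0 < s → s ≤ R / 16 →
      |INT.htot m T (ν.restrict (cylSet T 0 R)) x s / cg m - Q| ≤ 1 / 4)
    (hy : y ∈ ν.support) (hyx : T.starProjection y = x) (hzx : T.starProjection z = x)
    (hz : ∃ s₀ > 0, ∀ s, 0 < s → s ≤ s₀ → (Q : ℝ) * cg m ≤ ratio m ν z s) : y = z := by
  by_contra hne
  have hR := hI.pos
  have hCS := hI.cyl
  have hfin := hCS.fin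
  have hcg := cg_pos m
  obtain ⟨S, θ, -, -, -, hIC⟩ := AREA.intCyl_of_skel hI (A := univ) (by simp)
  obtain ⟨s₀, hs₀, hz⟩ := hz
  have hd : 0 < ‖y - z‖ := norm_pos_iff.2 (sub_ne_zero.2 hne)
  set s := min s₀ (min (‖y - z‖ / 2) (R / 16)) with hs
  have hs0 : 0 < s := lt_min hs₀ (lt_min (by positivity) (by positivity))
  have hs1 : s ≤ s₀ := min_le_left _ _
  have hs2 : s ≤ ‖y - z‖ / 2 := (min_le_right _ _).trans (min_le_left _ _)
  have hs3 : s ≤ R / 16 := (min_le_right _ _).trans (min_le_right _ _)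
  set ν' := ν.restrict (cylSet T 0 R) with hν'
  have hsm : 0 < s ^ m := by positivity
  -- balls over the fibre lie in the cylinder
  have hin : ∀ p : E, T.starProjection p = x → closedBall p s ⊆ cylSet T 0 R := by
    intro p hp w hw
    show T.starProjection w ∈ ball (0:E) R
    rw [mem_ball_zero_iff]
    rw [mem_closedBall, dist_eq_norm] at hw
    have h1 : ‖T.starProjection w - x‖ ≤ s := by
      rw [← hp, ← map_sub]; exact (norm_star_le T _).trans hw
    calc ‖T.starProjection w‖ = ‖(T.starProjection w - x) + x‖ := by rw [sub_add_cancel]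
      _ ≤ ‖T.starProjection w - x‖ + ‖x‖ := norm_add_le _ _
      _ < R := by linarith
  have hcutint : ∀ p : E, T.starProjection p = x → ∫ w, cut p s w ∂ν' = ∫ w, cut p s w ∂ν := by
    intro p hp
    refine setIntegral_eq_integral_of_forall_compl_eq_zero fun w hw => cut_eq_zero hs0 ?_
    by_contra hcon
    exact hw (hin p hp (by rw [mem_closedBall, dist_eq_norm]; exact (not_le.1 hcon).le))
  -- lower bounds
  have hysup : y ∈ ν'.support := by
    have hopen : IsOpen (cylSet T 0 R) := TCH.isOpen_cylSet T 0 R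
    rw [Measure.mem_support_iff_forall] at hy ⊢
    intro U hU
    have hyC : y ∈ cylSet T 0 R := hin y hyx (mem_closedBall_self hs0.le)
    have h2 := hy (U ∩ cylSet T 0 R) (inter_mem hU (hopen.mem_nhds hyC))
    rw [Measure.restrict_apply' hopen.measurableSet]
    exact h2
  have h1 : cg m * s ^ m ≤ ∫ w, cut y s w ∂ν := by
    have h2 := hIC.cg_le_ratio hysup hs0 (hin y hyx)
    unfold ratio at h2
    rw [le_div_iff₀ hsm, hcutint y hyx] at h2
    exact h2
  have h2 : (Q:ℝ) * cg m * s ^ m ≤ ∫ w, cut z s w ∂ν := by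
    have h3 := hz s hs0 hs1
    unfold ratio at h3
    rwa [le_div_iff₀ hsm] at h3
  -- upper bound
  have h3 : (∫ w, cut y s w ∂ν) + ∫ w, cut z s w ∂ν
      ≤ INT.htot m T ν' x s * s ^ m := by
    unfold INT.htot
    rw [div_mul_cancel₀ _ hsm.ne', star_eq hx, ← hcutint y hyx, ← hcutint z hzx,
      ← integral_add]
    · refine integral_mono_of_nonneg (Eventually.of_forall fun w => by
        have := cut_nonneg y s w; have := cut_nonneg z s w; positivity) ?_ ?_
      · refine (integrable_const (1:ℝ)).mono' ?_ (Eventually.of_forall fun w => ?_)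
        · exact ((continuous_cut x s).comp T.starProjection.continuous).aestronglyMeasurable
        · rw [Real.norm_of_nonneg (cut_nonneg _ _ _)]; exact cut_le_one _ _ _
      · refine Eventually.of_forall fun w => ?_
        have hle : ∀ p : E, T.starProjection p = x → cut p s w ≤ cut x s (T.starProjection w) := by
          intro p hp
          unfold cut
          refine prof_anti' ?_
          have : ‖T.starProjection w - x‖ ≤ ‖w - p‖ := by
            rw [← hp, ← map_sub]; exact norm_star_le T _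
          gcongr
        show cut y s w + cut z s w ≤ cut x s (T.starProjection w)
        by_cases hwy : s ≤ ‖w - y‖
        · rw [cut_eq_zero hs0 hwy, zero_add]; exact hle z hzx
        · by_cases hwz : s ≤ ‖w - z‖
          · rw [cut_eq_zero hs0 hwz, add_zero]; exact hle y hyx
          · exfalso
            rw [not_le] at hwy hwz
            have : ‖y - z‖ ≤ ‖w - y‖ + ‖w - z‖ := by
              calc ‖y - z‖ = ‖(w - z) - (w - y)‖ := by congr 1; abel
                _ ≤ ‖w - z‖ + ‖w - y‖ := norm_sub_le _ _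
                _ = _ := add_comm _ _
            linarith
    · refine (integrable_const (1:ℝ)).mono' ?_ (Eventually.of_forall fun w => ?_)
      · exact (continuous_cut y s).aestronglyMeasurable
      · rw [Real.norm_of_nonneg (cut_nonneg _ _ _)]; exact cut_le_one _ _ _
    · refine (integrable_const (1:ℝ)).mono' ?_ (Eventually.of_forall fun w => ?_)
      · exact (continuous_cut z s).aestronglyMeasurable
      · rw [Real.norm_of_nonneg (cut_nonneg _ _ _)]; exact cut_le_one _ _ _
  have h4 := abs_le.1 (hgd s hs0 hs3)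
  have h5 : INT.htot m T ν' x s ≤ (Q + 1 / 4) * cg m := by
    have h6 : INT.htot m T ν' x s / cg m ≤ Q + 1 / 4 := by linarith [h4.2]
    rwa [div_le_iff₀ hcg] at h6
  have h7 : (Q + 1 : ℝ) * cg m * s ^ m ≤ (Q + 1 / 4) * cg m * s ^ m := by
    calc (Q + 1 : ℝ) * cg m * s ^ m = cg m * s ^ m + Q * cg m * s ^ m := by ring
      _ ≤ INT.htot m T ν' x s * s ^ m := by linarith
      _ ≤ _ := by gcongr
  have h8 : 0 < cg m * s ^ m := by positivity
  nlinarith

end Vale.Agent.P214.W5
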