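import Mathlib

/-! A measure with upper mass bounds at the points of a set is bounded there by the Hausdorff
measure. -/

open Set Filter Topology MeasureTheory Metric
open scoped ENNReal NNReal

namespace Vale.Agent.P214.W5

variable {X : Type*} [MetricSpace X] [MeasurableSpace X] [BorelSpace X]

/-- **upper mass bounds ⇒ comparison with Hausdorff measure** -/
theorem measure_le_hausdorff {m : ℕ} (hm : 1 ≤ m) {μ : Measure X} {A : Set X}
    (hA : MeasurableSet A) {C s₀ : ℝ} (hC : 0 < C) (hs₀ : 0 < s₀)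
    (hb : ∀ x ∈ A, ∀ s, 0 < s → s ≤ s₀ → μ (ball x s) ≤ ENNReal.ofReal (C * s ^ m)) :
    μ A ≤ ENNReal.ofReal (C * 2 ^ m) * μH[m] A := by
  set K : ℝ≥0∞ := ENNReal.ofReal (C * 2 ^ m) with hK
  have hK0 : K ≠ 0 := by rw [hK]; simp; positivity
  have hKt : K ≠ ⊤ := ENNReal.ofReal_ne_top
  -- key estimate
  have key : ∀ s : Set X, ediam s ≤ ENNReal.ofReal (s₀ / 2) →
      (μ.restrict A) s ≤ K * ediam s ^ (m:ℝ) := by
    intro s hs
    rw [Measure.restrict_apply' hA]
    rcases (s ∩ A).eq_empty_or_nonempty with he | ⟨x, hxs, hxA⟩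
    · rw [he, measure_empty]; exact zero_le
    have hfin : ediam s ≠ ⊤ := (hs.trans_lt ENNReal.ofReal_lt_top).ne
    set d : ℝ := (ediam s).toReal with hd
    have hd0 : 0 ≤ d := ENNReal.toReal_nonneg
    have hds : ediam s = ENNReal.ofReal d := (ENNReal.ofReal_toReal hfin).symm
    have hdd : d ≤ s₀ / 2 := by
      rw [hd]; exact ENNReal.toReal_le_of_le_ofReal (by positivity) hs
    have hsub : ∀ r, d < r → s ∩ A ⊆ ball x r := by
      intro r hr y hy
      rw [mem_ball]
      refine lt_of_le_of_lt ?_ hr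
      have h1 : edist y x ≤ ediam s := edist_le_ediam_of_mem hy.1 hxs
      rw [edist_dist, hds] at h1
      exact (ENNReal.ofReal_le_ofReal_iff hd0).1 h1
    rcases hd0.eq_or_lt with h0 | h0
    · -- zero diameter
      have h1 : μ (s ∩ A) = 0 := by
        refine le_antisymm ?_ (zero_le)
        have h2 : Tendsto (fun r : ℝ => ENNReal.ofReal (C * r ^ m)) (𝓝[>] 0)
            (𝓝 (ENNReal.ofReal (C * 0 ^ m))) :=
          ENNReal.tendsto_ofReal (((by fun_prop : Continuous fun r : ℝ => C * r ^ m).tendsto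
            0).mono_left nhdsWithin_le_nhds)
        rw [zero_pow (by omega), mul_zero, ENNReal.ofReal_zero] at h2
        refine ge_of_tendsto h2 ?_
        filter_upwards [Ioc_mem_nhdsGT hs₀] with r hr
        exact (measure_mono (hsub r (by rw [← h0]; exact hr.1))).trans (hb x hxA r hr.1 hr.2)
      rw [h1]; exact zero_le
    · calc μ (s ∩ A) ≤ μ (ball x (2 * d)) := measure_mono (hsub _ (by linarith))
        _ ≤ ENNReal.ofReal (C * (2 * d) ^ m) := hb x hxA _ (by positivity) (by linarith)
        _ = K * ediam s ^ (m:ℝ) := by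
            rw [hK, hds, ENNReal.rpow_natCast, ← ENNReal.ofReal_pow hd0,
              ← ENNReal.ofReal_mul (by positivity)]
            congr 1
            rw [mul_pow]; ring
  have h1 : K⁻¹ • (μ.restrict A) ≤ μH[m] := by
    refine Measure.le_hausdorffMeasure _ _ (ENNReal.ofReal (s₀ / 2)) (by simp; positivity) ?_
    intro s hs
    rw [Measure.smul_apply, smul_eq_mul]
    calc K⁻¹ * (μ.restrict A) s ≤ K⁻¹ * (K * ediam s ^ (m:ℝ)) := by gcongr; exact key s hs
      _ = _ := by rw [← mul_assoc, ENNReal.inv_mul_cancel hK0 hKt, one_mul]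
  have h2 : K⁻¹ * μ A ≤ μH[m] A := by
    have := h1 A
    rwa [Measure.smul_apply, smul_eq_mul, Measure.restrict_apply_self] at this
  calc μ A = K * (K⁻¹ * μ A) := by rw [← mul_assoc, ENNReal.mul_inv_cancel hK0 hKt, one_mul]
    _ ≤ _ := by gcongr

end Vale.Agent.P214.W5
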