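import Vale.Agent.P214.W5.Const
import Vale.Agent.P214.W5.Haus
import Vale.Agent.P214.TCH.Path
import Vale.Agent.P214.INTM.M5
import Vale.Agent.P214.AREA.Conv
import Vale.Agent.P214.R2F.Pos

set_option linter.all false

/-! Block WINDOWS (W5): base points with small excess at all small scales. Masses of the cylinders
are bounded and a support point of density `≥ Q` is alone in its fibre. -/

open Set Filter Topology MeasureTheory Metric
open scoped RealInnerProductSpace ENNReal NNReal

namespace Vale.Agent.P214.W5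

open Vale.Agent.P214 Vale.Agent.P214.FV
open Vale.Agent.P214.Skel (cylSet om)

variable {E : Type*} [NormedAddCommGroup E] [InnerProductSpace ℝ E] [FiniteDimensional ℝ E]
  [MeasurableSpace E] [BorelSpace E]
variable {m Q : ℕ} {T : Submodule ℝ E} {R h δ : ℝ} {ν : Measure E} {P : E → E →L[ℝ] E}
  {z₀ z x y : E} {r s : ℝ}

lemma star_eq (hx : x ∈ T) : T.starProjection x = x := Submodule.starProjection_eq_self_iff.2 hx

lemma cyl_eq (hx : x ∈ T) : INT.cyl T x s = cylSet T x s := by
  unfold INT.cyl cylSet; rw [star_eq hx]; rfl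

/-- the squared tilt in operator norm against the trace tilt -/
lemma tiltsq_le_ae {G : Set E} (hC : CylStat m T G h ν P) :
    ∀ᵐ y ∂ν, INT.tilt P T y ^ 2 ≤ 2 * FV.tilt T (P y) := by
  filter_upwards [hC.proj] with y hy
  obtain ⟨L, hL, hPL⟩ := hy
  unfold INT.tilt
  rw [hPL]
  have h0 : 0 ≤ FV.tilt T L.starProjection := FV.tilt_nonneg L T
  have h1 : ‖L.starProjection - T.starProjection‖ ≤ √(2 * FV.tilt T L.starProjection) := by
    refine ContinuousLinearMap.opNorm_le_bound _ (Real.sqrt_nonneg _) fun v => ?_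
    have h2 := norm_sq_sub_le (S := L) (T := T) (hL.trans hC.dimT.symm) v
    rw [ContinuousLinearMap.sub_apply]
    refine le_of_sq_le_sq' ?_ (by positivity)
    rw [mul_pow, Real.sq_sqrt (by positivity)]
    exact h2
  calc ‖L.starProjection - T.starProjection‖ ^ 2 ≤ √(2 * FV.tilt T L.starProjection) ^ 2 := by
        gcongr
    _ = _ := Real.sq_sqrt (by positivity)
where
  le_of_sq_le_sq' {a b : ℝ} (h : a ^ 2 ≤ b ^ 2) (hb : 0 ≤ b) : a ≤ b := by
    nlinarith [abs_le_of_sq_le_sq h hb, le_abs_self a, abs_le_of_sq_le_sq' h hb]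

lemma int_exc_le {G : Set E} (hC : CylStat m T G h ν P) (hx : x ∈ T) (hs : 0 < s) {A : Set E}
    (hA : MeasurableSet A) (hsub : cylSet T x s ⊆ A) :
    INT.exc m T (ν.restrict A) P x s * s ^ m ≤ 2 * Skel.exc T ν P x s := by
  have hfin := hC.fin
  unfold INT.exc Skel.exc
  rw [div_mul_cancel₀ _ (by positivity), cyl_eq hx,
    Measure.restrict_restrict (TCH.measurableSet_cylSet T x s), inter_eq_left.2 hsub,
    ← integral_const_mul]
  have hint := R2F.integrable_tilt hC
  refine integral_mono_of_nonneg (Eventually.of_forall fun y => sq_nonneg _)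
    (hint.const_mul 2).integrableOn (ae_restrict_of_ae ?_)
  exact tiltsq_le_ae hC

/-- mass fraction of the sub-cylinders from the mass at the top scale -/
lemma near_of_skel (hI : Skel.IntCyl m Q T z₀ R h δ ν P) (hm : 1 ≤ m) (hz : z ∈ T) (hs : 0 < s)
    (hsub : ‖z - z₀‖ + s ≤ R) :
    |INT.htot m T (ν.restrict (cylSet T z₀ R)) z s - cg m * Q| ≤ TCH.cm m * δ
      + 36 * R / s ^ (m + 1) * Skel.exc T ν P z₀ R := by
  have hC := hI.cyl
  have hfin := hC.fin
  have hcm := TCH.cm_pos m
  have hsR : s ≤ R := by linarith [norm_nonneg (z - z₀)]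
  have hR : 0 < R := hs.trans_le hsR
  have hsub' : ball z s ⊆ ball z₀ R := by
    refine ball_subset_ball' ?_
    rw [dist_eq_norm]; linarith
  have hcs : cylSet T z s ⊆ cylSet T z₀ R := fun y hy => hsub' hy
  have h1 := TCH.mass_sub hC hI.mem hm hz hs hsub
  have h2 := hI.mass
  have hCz : CylStat m T (ball z s) h ν P := by
    refine ⟨hC.fin, hC.meas, hC.proj, hC.dimT, isOpen_ball, ?_, ?_⟩
    · filter_upwards [hC.slab] with y hy hyb using hy (hsub' hyb)
    · intro X hX hb
      refine hC.stat X hX ?_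
      obtain ⟨K, hK, hKG, h0⟩ := hb
      exact ⟨K, hK, hKG.trans hsub', h0⟩
  have h3 := TCH.sharp_smooth hCz hz hm hs le_rfl
  -- identification of the smooth mass
  have h4 : INT.htot m T (ν.restrict (cylSet T z₀ R)) z s * s ^ m
      = ∫ y, prof (ODE.bsq T z y / s ^ 2) ∂ν := by
    unfold INT.htot
    rw [div_mul_cancel₀ _ (by positivity), star_eq hz]
    rw [setIntegral_eq_integral_of_forall_compl_eq_zero]
    · refine integral_congr_ae (Eventually.of_forall fun y => ?_)
      simp only [cut]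
      rw [TCH.bsq_eq hz]
      rfl
    · intro y hy
      refine cut_eq_zero hs ?_
      by_contra hcon
      refine hy (hcs ?_)
      show T.starProjection y ∈ ball z s
      rw [mem_ball, dist_eq_norm]
      exact not_le.1 hcon
  rw [← h4, ← TCH.exc_eq hz hs] at h3
  have h5 : Skel.exc T ν P z s ≤ Skel.exc T ν P z₀ R := by
    unfold Skel.exc
    refine setIntegral_mono_set (R2F.integrable_tilt hC).integrableOn ?_ hcs.eventuallyLE
    exact ae_restrict_of_ae (R2F.tilt_nonneg_ae hC)
  have hE0 : 0 ≤ Skel.exc T ν P z₀ R := by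
    unfold Skel.exc
    exact setIntegral_nonneg_of_ae_restrict (ae_restrict_of_ae (R2F.tilt_nonneg_ae hC))
  set H := INT.htot m T (ν.restrict (cylSet T z₀ R)) z s with hH
  set M := ν.real (cylSet T z s) with hM
  set M₀ := ν.real (cylSet T z₀ R) with hM₀
  set X := Skel.exc T ν P z₀ R with hX
  have hsm : 0 < s ^ m := by positivity
  have hRm : 0 < R ^ m := by positivity
  have a1 : |TCH.cm m * (M / s ^ m) - H| ≤ 12 * X / s ^ m := by
    have e1 : TCH.cm m * (M / s ^ m) - H = (TCH.cm m * M - H * s ^ m) / s ^ m := by field_simp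
    rw [e1, abs_div, abs_of_pos hsm]
    gcongr
    exact h3.trans (by gcongr)
  have a2 : |M₀ / R ^ m - Q * om m| ≤ δ := by
    have e1 : M₀ / R ^ m - Q * om m = (M₀ - Q * om m * R ^ m) / R ^ m := by field_simp
    rw [e1, abs_div, abs_of_pos hRm, div_le_iff₀ hRm]
    exact h2
  have e2 : cg m * Q = TCH.cm m * (Q * om m) := by rw [cg_eq_cm]; ring
  have a3 : |TCH.cm m * (M / s ^ m) - TCH.cm m * (Q * om m)| ≤ TCH.cm m * δ
      + 24 * R / s ^ (m + 1) * X := by
    rw [← mul_sub, abs_mul, abs_of_pos hcm]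
    calc TCH.cm m * |M / s ^ m - Q * om m|
        ≤ TCH.cm m * (|M / s ^ m - M₀ / R ^ m| + |M₀ / R ^ m - Q * om m|) := by
          gcongr
          exact abs_sub_le _ _ _
      _ ≤ TCH.cm m * (24 * R / (TCH.cm m * s ^ (m + 1)) * X + δ) := by gcongr
      _ = _ := by field_simp; ring
  have a4 : 12 * X / s ^ m ≤ 12 * R / s ^ (m + 1) * X := by
    have : 12 * X / s ^ m = 12 * s / s ^ (m + 1) * X := by
      rw [pow_succ]; field_simp
    rw [this]; gcongr
  rw [e2]
  calc |H - TCH.cm m * (Q * om m)| ≤ |H - TCH.cm m * (M / s ^ m)|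
        + |TCH.cm m * (M / s ^ m) - TCH.cm m * (Q * om m)| := abs_sub_le _ _ _
    _ ≤ 12 * R / s ^ (m + 1) * X + (TCH.cm m * δ + 24 * R / s ^ (m + 1) * X) := by
        rw [abs_sub_comm H]
        exact add_le_add (a1.trans a4) a3
    _ = _ := by ring

end Vale.Agent.P214.W5
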