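import Vale.Agent.P214.W5.Core

set_option linter.all false

/-! Block WINDOWS (W5), (W4), next scale: the decay inequality in normalised form, small values at
the scale `r H^{c₅}`, the value at the origin, and the next radius. -/

open Set Filter Topology MeasureTheory Metric
open scoped RealInnerProductSpace ENNReal NNReal

namespace Vale.Agent.P214.W5

open Vale.Agent.P214 Vale.Agent.P214.FV
open Vale.Agent.P214.Skel (cylSet om)

/-- normalised height `t^{-m-2} ∫_{C_t} |v|²` -/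
noncomputable def hV {E : Type*} [NormedAddCommGroup E] [InnerProductSpace ℝ E]
    [FiniteDimensional ℝ E] [MeasurableSpace E] (m : ℕ) (T : Submodule ℝ E) (v : E → E)
    (ν : Measure E) (t : ℝ) : ℝ := (t ^ (m + 2))⁻¹ * ∫ y in cylSet T 0 t, ‖v y‖ ^ 2 ∂ν

lemma hV_nonneg {E : Type*} [NormedAddCommGroup E] [InnerProductSpace ℝ E]
    [FiniteDimensional ℝ E] [MeasurableSpace E] {m : ℕ} {T : Submodule ℝ E} {v : E → E}
    {ν : Measure E} {t : ℝ} (ht : 0 < t) : 0 ≤ hV m T v ν t := by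
  unfold hV
  have : 0 ≤ ∫ y in cylSet T 0 t, ‖v y‖ ^ 2 ∂ν := integral_nonneg fun _ => sq_nonneg _
  positivity

/-- **(W5) at one scale, normalised** -/
theorem decay1 (E : Type*) [NormedAddCommGroup E] [InnerProductSpace ℝ E]
    [FiniteDimensional ℝ E] [MeasurableSpace E] [BorelSpace E] (m Q : ℕ) (hm : 1 ≤ m) :
    ∃ τ C : ℝ, 0 < τ ∧ 1 ≤ C ∧ ∀ (T : Submodule ℝ E) (R h : ℝ) (ν : Measure E)
      (P : E → E →L[ℝ] E) (v : E → E) (K Bad : Set E) (t σ β δ M C₅ : ℝ),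
      Skel.IntCyl m Q T 0 R h τ ν P → Skel.exc T ν P 0 R ≤ τ * R ^ m → 0 < t → t ≤ R / 2 →
      Continuous v → IsCompact K →
      (∀ z ∈ K, ‖T.starProjection z‖ < t →
        ∃ s₀ > 0, ∀ s, 0 < s → s ≤ s₀ → (Q : ℝ) * cg m ≤ ratio m ν z s) →
      MeasurableSet Bad →
      (∀ x ∈ T, ‖x‖ < t → x ∉ Bad → Gd m T ν P τ (R / 16) x) →
      (∀ z ∈ K, ‖T.starProjection z‖ < t → T.starProjection z ∉ Bad → ‖v z‖ ≤ σ) →
      (∀ y ∈ ν.support, ‖T.starProjection y‖ < t →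
        ‖v y‖ ^ 2 ≤ C₅ * (t ^ m)⁻¹ * ∫ y in cylSet T 0 (2 * t), ‖v y‖ ^ 2 ∂ν) → 0 ≤ C₅ →
      ν.real (T.starProjection ⁻¹' Bad) ≤ β →
      μH[m] (((T : Set E) ∩ ball 0 t) \ (T.starProjection '' K)) ≤ ENNReal.ofReal (δ * t ^ m) →
      0 ≤ δ → ν.real (cylSet T 0 t) ≤ M * t ^ m →
      hV m T v ν t ≤ C * C₅ * (δ + β / t ^ m) * hV m T v ν (2 * t) + M * (σ / t) ^ 2 := by
  obtain ⟨τ, C, hτ, hC, H⟩ := core E m Q hm
  refine ⟨τ, (C + 1) * 2 ^ (m + 2), hτ, ?_, ?_⟩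
  · have : (1:ℝ) ≤ 2 ^ (m + 2) := one_le_pow₀ (by norm_num)
    nlinarith
  intro T R h ν P v K Bad t σ β δ M C₅ hI hex ht htR hv hK hKr hBad hgd hKv hS hC₅ hβ hγ hδ hM
  have hfin := hI.cyl.fin
  set I2 := ∫ y in cylSet T 0 (2 * t), ‖v y‖ ^ 2 ∂ν with hI2
  have hI20 : 0 ≤ I2 := integral_nonneg fun _ => sq_nonneg _
  have htm : 0 < t ^ m := by positivity
  have hβ' : ν.real (T.starProjection ⁻¹' Bad ∩ cylSet T 0 t) ≤ β :=
    (measureReal_mono inter_subset_left).trans hβ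
  have hβ0 : 0 ≤ β := measureReal_nonneg.trans hβ
  have h1 := H T R h ν P v K Bad t σ β (δ * t ^ m) (C₅ * (t ^ m)⁻¹ * I2) hI hex ht htR hv hK hKr
    hBad hgd hKv hS (by positivity) hβ' hγ (by positivity)
  have e2 : (2 * t) ^ (m + 2) = 2 ^ (m + 2) * t ^ (m + 2) := mul_pow _ _ _
  unfold hV
  rw [← hI2, e2]
  have ht2 : 0 < t ^ (m + 2) := by positivity
  calc (t ^ (m + 2))⁻¹ * ∫ y in cylSet T 0 t, ‖v y‖ ^ 2 ∂ν
      ≤ (t ^ (m + 2))⁻¹ * (M * t ^ m * σ ^ 2 + (β + C * (δ * t ^ m)) * (C₅ * (t ^ m)⁻¹ * I2)) := by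
        gcongr
        refine h1.trans ?_
        gcongr
    _ = (C * δ + β / t ^ m) * (2 ^ (m + 2) * C₅ * ((2 ^ (m + 2) * t ^ (m + 2))⁻¹ * I2))
        + M * (σ / t) ^ 2 := by
        rw [div_pow, show t ^ (m + 2) = t ^ m * t ^ 2 by ring]
        field_simp
        ring
    _ ≤ ((C + 1) * (δ + β / t ^ m)) * (2 ^ (m + 2) * C₅ * ((2 ^ (m + 2) * t ^ (m + 2))⁻¹ * I2))
        + M * (σ / t) ^ 2 := by
        have h3 : C * δ + β / t ^ m ≤ (C + 1) * (δ + β / t ^ m) := by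
          have h4 : 0 ≤ β / t ^ m := by positivity
          nlinarith
        gcongr
    _ = _ := by ring

/-! ### real analysis -/

/-- smallness of powers -/
lemma exists_pow_small {a b : ℝ} (C : ℝ) (hab : b < a) :
    ∃ ε : ℝ, 0 < ε ∧ ∀ H, 0 < H → H ≤ ε → C * H ^ a ≤ H ^ b := by
  have h1 : Tendsto (fun H : ℝ => C * H ^ (a - b)) (𝓝[>] 0) (𝓝 (C * 0)) :=
    ((tendsto_rpow_nhdsGT_zero (by linarith : 0 < a - b))).const_mul C
  rw [mul_zero] at h1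
  obtain ⟨ε, hε, h2⟩ := mem_nhdsGT_iff_exists_Ioo_subset.1 (h1.eventually (gt_mem_nhds one_pos))
  have hε' : (0:ℝ) < ε := hε
  refine ⟨ε / 2, by positivity, fun H hH hHe => ?_⟩
  have h3 : C * H ^ (a - b) < 1 := h2 ⟨hH, by linarith⟩
  have h4 : C * H ^ a = C * H ^ (a - b) * H ^ b := by
    rw [mul_assoc, ← Real.rpow_add hH]; congr 2; ring
  rw [h4]
  have : 0 < H ^ b := by positivity
  nlinarith
where
  tendsto_rpow_nhdsGT_zero {p : ℝ} (hp : 0 < p) : Tendsto (fun x : ℝ => x ^ p) (𝓝[>] 0) (𝓝 0) := by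
    have h := (Real.continuousAt_rpow_const 0 p (Or.inr hp.le)).tendsto
    rw [Real.zero_rpow hp.ne'] at h
    exact h.mono_left nhdsWithin_le_nhds

/-- **iterated decay down to the scale `r H^{c₅}`** -/
theorem small_at {D : ℕ} (hD : 1 ≤ D) {c₅ e g C₁ C₂ : ℝ} (hc₅ : 0 < c₅) (hC₁ : 0 ≤ C₁)
    (hC₂ : 0 ≤ C₂) {h : ℝ → ℝ} {r R H : ℝ} (hr : 0 < r) (hRr : R ≤ r) (hrR : r ≤ 2 * R)
    (hH : 0 < H) (hH1 : H ^ c₅ ≤ 1 / 2)
    (htop : ∀ t, R / 2 < t → t ≤ R → h t ≤ C₁ * H ^ (1 - e))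
    (hdec : ∀ t, r * H ^ c₅ ≤ t → 2 * t ≤ R →
      h t ≤ (1 / 2 ^ D) * h (2 * t) + C₂ * H ^ (1 + g) * (r / t) ^ 2) :
    (∀ t, r * H ^ c₅ ≤ t → t ≤ R →
      h t ≤ 4 ^ D * (t / r) ^ D * (C₁ * H ^ (1 - e)) + 2 * (C₂ * H ^ (1 + g)) * (r / t) ^ 2) ∧
    h (r * H ^ c₅) ≤ 4 ^ D * C₁ * H ^ (1 + D * c₅ - e) + 2 * C₂ * H ^ (1 + g - 2 * c₅) := by
  have hR : 0 < R := by linarith
  have hHc : 0 < H ^ c₅ := by positivity
  have ha : 0 < r * H ^ c₅ := by positivity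
  have key : ∀ t, r * H ^ c₅ ≤ t → t ≤ R →
      h t ≤ 4 ^ D * (t / r) ^ D * (C₁ * H ^ (1 - e)) + 2 * (C₂ * H ^ (1 + g)) * (r / t) ^ 2 := by
    intro t hat htR
    have ht : 0 < t := ha.trans_le hat
    have h1 := power_decay (h := h) (r := r) (B := C₂ * H ^ (1 + g)) (a := r * H ^ c₅) (b := R)
      (M := C₁ * H ^ (1 - e)) hD (by positivity) ha htop (by positivity) hdec t hat htR
    refine h1.trans ?_
    have h2 : 2 ^ D * (t / R) ^ D ≤ 4 ^ D * (t / r) ^ D := by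
      rw [← mul_pow, ← mul_pow]
      have h3 : 2 * (t / R) ≤ 4 * (t / r) := by
        rw [← mul_div_assoc, ← mul_div_assoc, div_le_div_iff₀ hR hr]
        nlinarith
      gcongr
    gcongr
  refine ⟨key, ?_⟩
  have h1 := key (r * H ^ c₅) le_rfl (by nlinarith)
  refine h1.trans (le_of_eq ?_)
  have e1 : r * H ^ c₅ / r = H ^ c₅ := by field_simp
  have e2 : r / (r * H ^ c₅) = H ^ (-c₅) := by
    rw [Real.rpow_neg hH.le]; field_simp
  rw [e1, e2]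
  have e3 : (H ^ c₅) ^ D = H ^ (D * c₅) := by
    rw [← Real.rpow_natCast, ← Real.rpow_mul hH.le]; congr 1; ring
  have e4 : (H ^ (-c₅)) ^ 2 = H ^ (-(2 * c₅)) := by
    rw [← Real.rpow_natCast, ← Real.rpow_mul hH.le]; congr 1; push_cast; ring
  rw [e3, e4]
  have e5 : H ^ (1 + D * c₅ - e) = H ^ (D * c₅) * H ^ (1 - e) := by
    rw [← Real.rpow_add hH]; congr 1; ring
  have e6 : H ^ (1 + g - 2 * c₅) = H ^ (1 + g) * H ^ (-(2 * c₅)) := by
    rw [← Real.rpow_add hH]; congr 1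
  rw [e5, e6]
  ring

end Vale.Agent.P214.W5
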