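import Vale.Agent.P214.W5.Out

set_option linter.all false

/-! Block WINDOWS (W5), (W4), next scale: the output for one step of the sequence. -/

open Set Filter Topology MeasureTheory Metric
open scoped RealInnerProductSpace ENNReal NNReal

namespace Vale.Agent.P214.W5

open Vale.Agent.P214 Vale.Agent.P214.FV
open Vale.Agent.P214.Skel (cylSet om)

section
variable {E : Type*} [NormedAddCommGroup E] [InnerProductSpace ℝ E] [FiniteDimensional ℝ E]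
  [MeasurableSpace E] [BorelSpace E]
variable {m Q : ℕ} {T : Submodule ℝ E} {ν : Measure E} {P : E → E →L[ℝ] E} {K Bad : Set E}
  {δ : ℝ → ℝ} {M τ r R : ℝ} {v v₁ w : E → E}

/-- continuous functions are square integrable over the cylinder (the slab is bounded) -/
lemma integrableOn_sq {G : Set E} {h t : ℝ} (hC : CylStat m T G h ν P) (hG : ball 0 t ⊆ G)
    (hv : Continuous v) : IntegrableOn (fun y => ‖v y‖ ^ 2) (cylSet T 0 t) ν := by
  have hfin := hC.fin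
  obtain ⟨B, hB⟩ := (isCompact_closedBall (0:E) (t + h)).exists_bound_of_continuousOn
    (f := fun y => ‖v y‖ ^ 2) (by fun_prop)
  refine Measure.integrableOn_of_bounded (M := B) (measure_ne_top _ _)
    (by fun_prop : Continuous fun y => ‖v y‖ ^ 2).aestronglyMeasurable ?_
  rw [ae_restrict_iff' (TCH.measurableSet_cylSet T 0 t)]
  filter_upwards [hC.slab] with y hy hyt
  refine hB y ?_
  have h1 : T.starProjection y ∈ ball (0:E) t := hyt
  have h2 := hy (hG h1)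
  rw [mem_ball_zero_iff] at h1
  rw [mem_closedBall_zero_iff]
  calc ‖y‖ = ‖T.starProjection y + (y - T.starProjection y)‖ := by rw [add_sub_cancel]
    _ ≤ ‖T.starProjection y‖ + ‖y - T.starProjection y‖ := norm_add_le _ _
    _ ≤ t + h := by linarith

/-- left continuity up to the double ball -/
lemma hV_left {G : Set E} {h t : ℝ} (hC : CylStat m T G h ν P) (hG : ball 0 t ⊆ G) (ht : 0 < t)
    (hv : Continuous v) : Tendsto (hV m T v ν) (𝓝[<] t) (𝓝 (hV m T v ν t)) :=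
  tendsto_hV_left ht (integrableOn_sq hC hG hv)

/-- the next radius -/
lemma next_radius (hD : Dat m Q T ν P K δ M τ r) (hRr : R ≤ r) (hv : Continuous v) {t₀ a : ℝ}
    (ht₀ : 0 < t₀) (ht₀R : t₀ ≤ R) (ha : hV m T v ν t₀ ≤ a) :
    ∃ r₁, t₀ ≤ r₁ ∧ r₁ ≤ R ∧ hV m T v ν r₁ ≤ a ∧ ∀ t, r₁ < t → t ≤ R → a < hV m T v ν t := by
  obtain ⟨h, hI⟩ := hD.int
  have hr := hD.r_pos
  refine next_scale ht₀ ht₀R ha fun t ht htR => hV_left hI.cyl (ball_subset_ball ?_) ht hv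
  linarith

end

/-- **(W5), (W4), next scale: output of one step.** `v` is the height relative to the new
(untranslated) reference, `v₁` the height relative to the translated one (`v₁ y = v y - v 0`).
`H` is the normalised height at the beginning of the step. -/
theorem step_out (E : Type*) [NormedAddCommGroup E] [InnerProductSpace ℝ E]
    [FiniteDimensional ℝ E] [MeasurableSpace E] [BorelSpace E] (m Q : ℕ) (hm : 1 ≤ m) {D : ℕ}
    {c₀ c c' c₅ e : ℝ} (hX : Expo m D c₀ c c' c₅ e) {M C₅ C₁ : ℝ} (hM : 0 ≤ M) (hC₅ : 0 ≤ C₅)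
    (hC₁ : 0 ≤ C₁) :
    ∃ τ δ₁ ε C : ℝ, 0 < τ ∧ 0 < δ₁ ∧ 0 < ε ∧ 1 ≤ C ∧ ∀ (T : Submodule ℝ E) (ν : Measure E)
      (P : E → E →L[ℝ] E) (v v₁ : E → E) (K Bad : Set E) (δ : ℝ → ℝ) (H r R : ℝ),
      Dat m Q T ν P K δ M τ r → (∀ t, 0 < t → t ≤ r → δ t ≤ δ₁) → 0 < H → H ≤ ε →
      BadS m T ν P Bad (H ^ c₀) τ r R →
      Hgt m T ν K Bad v C₅ (r * H ^ (1 / 2 + c₀)) R →
      (∀ y, ‖T.starProjection y‖ < R → v₁ y = v y - v 0) →
      (Continuous v₁ ∧ ∀ t, 0 < t → 2 * t ≤ R → ∀ y ∈ ν.support, ‖T.starProjection y‖ < t →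
        ‖v₁ y‖ ^ 2 ≤ C₅ * (t ^ m)⁻¹ * ∫ y in cylSet T 0 (2 * t), ‖v₁ y‖ ^ 2 ∂ν) →
      (0:E) ∈ ν.support →
      (∀ t, R / 2 < t → t ≤ R → hV m T v ν t ≤ C₁ * H ^ (1 - e)) →
      (∀ t, R / 2 < t → t ≤ R → hV m T v₁ ν t ≤ C₁ * H ^ (1 - e)) →
      -- (W4)
      ‖v 0‖ ≤ r * H ^ (1 / 2 + c') ∧
      -- (W3) for the translated reference
      Hgt m T ν K Bad v₁ C₅ (2 * r * H ^ (1 / 2 + c')) R ∧
      -- (W5)
      (∀ t, r * H ^ c₅ ≤ t → 2 * t ≤ R →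
        hV m T v₁ ν t ≤ C * (δ t + H ^ (c₀ / 2)) * hV m T v₁ ν (2 * t)
          + C * (r / t) ^ 2 * H ^ (1 + 2 * c')) ∧
      (∀ t, r * H ^ c₅ ≤ t → 2 * t ≤ R →
        hV m T v₁ ν t ≤ (1 / 2 ^ D) * hV m T v₁ ν (2 * t) + C * (r / t) ^ 2 * H ^ (1 + 2 * c')) ∧
      -- next scale
      hV m T v₁ ν (r * H ^ c₅) ≤ H ^ (1 + c) ∧
      ∃ r₁, r * H ^ c₅ ≤ r₁ ∧ r₁ ≤ R ∧ hV m T v₁ ν r₁ ≤ H ^ (1 + c) ∧
        ∀ t, r₁ < t → t ≤ R → H ^ (1 + c) < hV m T v₁ ν t := by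
  obtain ⟨τ, A, hτ, hA, hdec⟩ := decay_pow E m Q hm hM hC₅
  have hA0 : 0 < A := by linarith
  obtain ⟨ε, hε, hsm⟩ := exists_sm hX (4 * A) C₅ C₁
  refine ⟨τ, 1 / (2 * (4 * A) * 2 ^ D), ε, 4 * A, hτ, by positivity, hε, by linarith, ?_⟩
  intro T ν P v v₁ K Bad δ H r R hDat hδ hH hHε hB hv hv₁ hsup₁ h0 htop htop₁
  have hS := hsm H hH hHε
  have hH1 := hS.le_one
  have hr := hDat.r_pos
  have hRr := hB.R_le
  have hrR := hB.le_R
  have hR : 0 < R := by linarith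
  have hHc5 : H ^ c₅ ≤ 1 / 2 := by have := hS.s2; linarith
  have hHc0 : 0 < H ^ c₅ := by positivity
  have hD := hX.D_pos
  have hpos : ∀ t, r * H ^ c₅ ≤ t → 0 < t := fun t ht => lt_of_lt_of_le (by positivity) ht
  have hcoef2 : ∀ t, 0 < t → t ≤ r → 4 * A * (δ t + H ^ (c₀ / 2)) ≤ 1 / 2 ^ D :=
    fun t ht htr => coef_small (by positivity) (hδ t ht htr) hS.s1
  -- decay for the untranslated reference
  have hu : hV m T v ν (r * H ^ c₅)
      ≤ 4 ^ D * C₁ * H ^ (1 + D * c₅ - e) + 2 * (4 * A) * H ^ (1 + 2 * c₀ - 2 * c₅) := by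
    refine (small_at hD hX.c₅_pos hC₁ (by positivity : 0 ≤ 4 * A) hr hRr hrR hH hHc5 htop
      (g := 2 * c₀) ?_).2
    intro t hat htR
    have b1 := hdec T ν P v K Bad δ (H ^ (1 / 2 + c₀)) H c₀ c₅ r R hDat hB hv hH hH1 hX.m_c₅ t
      hat htR
    have b2 := hcoef2 t (hpos t hat) (by linarith [hpos t hat])
    have b3 : 0 ≤ hV m T v ν (2 * t) := hV_nonneg (by linarith [hpos t hat])
    have b4 : A * (δ t + H ^ (c₀ / 2)) ≤ 1 / 2 ^ D := by
      have b5 : 0 ≤ δ t := hDat.δ_nn t (hpos t hat) (by linarith [hpos t hat])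
      have b6 : 0 ≤ δ t + H ^ (c₀ / 2) := by positivity
      nlinarith
    rw [rpow_sq hH, show 2 * (1 / 2 + c₀) = 1 + 2 * c₀ by ring] at b1
    refine b1.trans (add_le_add (mul_le_mul_of_nonneg_right b4 b3) ?_)
    have b7 : 0 ≤ H ^ (1 + 2 * c₀) * (r / t) ^ 2 := by positivity
    nlinarith
  have hW4 : ‖v 0‖ ≤ r * H ^ (1 / 2 + c') := by
    refine value_arith hr hC₅ hS (norm_nonneg _) hu ?_
    exact value_zero hv h0 (by positivity) (by nlinarith)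
  -- the translated reference
  have hv₁H : Hgt m T ν K Bad v₁ C₅ (2 * r * H ^ (1 / 2 + c')) R := by
    refine ⟨hsup₁.1, hsup₁.2, fun z hz hzR hzB => ?_⟩
    rw [hv₁ z hzR]
    have b1 := hv.pts z hz hzR hzB
    have b2 : H ^ (1 / 2 + c₀) ≤ H ^ (1 / 2 + c') :=
      Real.rpow_le_rpow_of_exponent_ge hH hH1 (by linarith [hX.c'_lt])
    calc ‖v z - v 0‖ ≤ ‖v z‖ + ‖v 0‖ := norm_sub_le _ _
      _ ≤ r * H ^ (1 / 2 + c₀) + r * H ^ (1 / 2 + c') := add_le_add b1 hW4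
      _ ≤ r * H ^ (1 / 2 + c') + r * H ^ (1 / 2 + c') := by gcongr
      _ = _ := by ring
  have hW5 : ∀ t, r * H ^ c₅ ≤ t → 2 * t ≤ R →
      hV m T v₁ ν t ≤ 4 * A * (δ t + H ^ (c₀ / 2)) * hV m T v₁ ν (2 * t)
        + 4 * A * (r / t) ^ 2 * H ^ (1 + 2 * c') := by
    intro t hat htR
    have b1 := hdec T ν P v₁ K Bad δ (2 * H ^ (1 / 2 + c')) H c₀ c₅ r R hDat hB (by
      rw [show r * (2 * H ^ (1 / 2 + c')) = 2 * r * H ^ (1 / 2 + c') by ring]; exact hv₁H)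
      hH hH1 hX.m_c₅ t hat htR
    have b3 : 0 ≤ hV m T v₁ ν (2 * t) := hV_nonneg (by linarith [hpos t hat])
    have b5 : 0 ≤ δ t := hDat.δ_nn t (hpos t hat) (by linarith [hpos t hat])
    have b6 : 0 ≤ (δ t + H ^ (c₀ / 2)) * hV m T v₁ ν (2 * t) := by positivity
    rw [mul_pow, rpow_sq hH, show 2 * (1 / 2 + c') = 1 + 2 * c' by ring] at b1
    refine b1.trans (add_le_add ?_ (le_of_eq (by ring)))
    nlinarith
  have hW5' : ∀ t, r * H ^ c₅ ≤ t → 2 * t ≤ R →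
      hV m T v₁ ν t ≤ (1 / 2 ^ D) * hV m T v₁ ν (2 * t)
        + 4 * A * (r / t) ^ 2 * H ^ (1 + 2 * c') := by
    intro t hat htR
    have b3 : 0 ≤ hV m T v₁ ν (2 * t) := hV_nonneg (by linarith [hpos t hat])
    have b2 := hcoef2 t (hpos t hat) (by linarith [hpos t hat])
    exact (hW5 t hat htR).trans (add_le_add_left (mul_le_mul_of_nonneg_right b2 b3) _)
  have hu₁ : hV m T v₁ ν (r * H ^ c₅) ≤ H ^ (1 + c) := by
    have b1 := (small_at hD hX.c₅_pos hC₁ (by positivity : 0 ≤ 4 * A) hr hRr hrR hH hHc5 htop₁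
      (g := 2 * c') (fun t hat htR => (hW5' t hat htR).trans (le_of_eq (by ring)))).2
    have b2 := hS.s5
    have b3 := hS.s6
    refine b1.trans ?_
    linarith
  exact ⟨hW4, hv₁H, hW5, hW5', hu₁,
    next_radius hDat hRr hsup₁.1 (by positivity) (by nlinarith) hu₁⟩

end Vale.Agent.P214.W5
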